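import Vale.Agent.P110.Full.Target.Kernel

/-!
Target, frequency: the instantaneous frequency attached to tiling data. On a positive run it
goes from the top level `(1 - e) N` through an apex down to the time slot, climbs through the
slot along `H`, and returns. The apexes make the phase an integer at the ends of all runs and
give it the prescribed value at the start of the inner part.
-/

noncomputable section

namespace Vale.Agent.P110.Full.Target

open Finset MeasureTheory intervalIntegral Real

/-- Data fixing the shape of the frequency. -/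
structure Cfg where
  D : Runs
  e : ℝ
  L : ℝ
  H : ℝ → ℝ
  z₀ : ℝ
  e_pos : 0 < e
  e_small : e ≤ 1 / 10
  L_pos : 0 < L
  L_small : L ≤ 1 / 4
  H_cont : Continuous H
  H_zero : H 0 = 0
  H_one : H 1 = 1
  H_mem : ∀ x ∈ Set.Icc (0 : ℝ) 1, H x ∈ Set.Icc (0 : ℝ) 1

/-- Clamp to the unit interval. -/
def clamp (x : ℝ) : ℝ := max 0 (min 1 x)

theorem clamp_mem (x : ℝ) : clamp x ∈ Set.Icc (0 : ℝ) 1 :=
  ⟨le_max_left _ _, max_le zero_le_one (min_le_left _ _)⟩

theorem clamp_of_le {x : ℝ} (h : x ≤ 0) : clamp x = 0 := by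
  rw [clamp, min_eq_right (h.trans zero_le_one), max_eq_left h]

theorem clamp_of_ge {x : ℝ} (h : 1 ≤ x) : clamp x = 1 := by
  rw [clamp, min_eq_left h, max_eq_right zero_le_one]

theorem clamp_of_mem {x : ℝ} (h : x ∈ Set.Icc (0 : ℝ) 1) : clamp x = x := by
  rw [clamp, min_eq_right h.2, max_eq_right h.1]

/-- A tent of height one around `c` of half-width `h`. -/
def tent (h c u : ℝ) : ℝ := max 0 (1 - |u - c| / h)

theorem tent_mem {h : ℝ} (hh : 0 < h) (c u : ℝ) : tent h c u ∈ Set.Icc (0 : ℝ) 1 := by
  refine ⟨le_max_left _ _, max_le zero_le_one ?_⟩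
  have : 0 ≤ |u - c| / h := by positivity
  linarith

theorem tent_zero {h c u : ℝ} (hh : 0 < h) (hu : h ≤ |u - c|) : tent h c u = 0 :=
  max_eq_left (by rw [sub_nonpos, le_div_iff₀ hh, one_mul]; exact hu)

theorem tent_left {h c u : ℝ} (hh : 0 < h) (h1 : c - h ≤ u) (h2 : u ≤ c) :
    tent h c u = (u - (c - h)) / h := by
  have e1 : (u - (c - h)) / h = 1 - |u - c| / h := by
    rw [abs_of_nonpos (by linarith), eq_sub_iff_add_eq, ← add_div, div_eq_one_iff_eq hh.ne']
    ring
  rw [tent, ← e1]
  exact max_eq_right (div_nonneg (by linarith) hh.le)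

theorem tent_right {h c u : ℝ} (hh : 0 < h) (h1 : c ≤ u) (h2 : u ≤ c + h) :
    tent h c u = (c + h - u) / h := by
  have e1 : (c + h - u) / h = 1 - |u - c| / h := by
    rw [abs_of_nonneg (by linarith), eq_sub_iff_add_eq, ← add_div, div_eq_one_iff_eq hh.ne']
    ring
  rw [tent, ← e1]
  exact max_eq_right (div_nonneg (by linarith) hh.le)

theorem continuous_tent (h c : ℝ) : Continuous (tent h c) := by unfold tent; fun_prop

theorem integral_tent {h c : ℝ} (hh : 0 < h) : ∫ u in (c - h)..(c + h), tent h c u = h := by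
  rw [← integral_add_adjacent_intervals (b := c) ((continuous_tent h c).intervalIntegrable _ _)
    ((continuous_tent h c).intervalIntegrable _ _)]
  have e1 : ∫ u in (c - h)..c, tent h c u = ∫ u in (c - h)..c, (u - (c - h)) / h :=
    integral_congr fun u hu => by
      rw [Set.uIcc_of_le (by linarith)] at hu
      exact tent_left hh hu.1 hu.2
  have e2 : ∫ u in c..(c + h), tent h c u = ∫ u in c..(c + h), (c + h - u) / h :=
    integral_congr fun u hu => by
      rw [Set.uIcc_of_le (by linarith)] at hu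
      exact tent_right hh hu.1 hu.2
  rw [e1, e2, intervalIntegral.integral_div, intervalIntegral.integral_div,
    intervalIntegral.integral_sub (continuous_id'.intervalIntegrable _ _) intervalIntegrable_const,
    intervalIntegral.integral_sub intervalIntegrable_const (continuous_id'.intervalIntegrable _ _),
    integral_id, integral_id, intervalIntegral.integral_const, intervalIntegral.integral_const,
    smul_eq_mul, smul_eq_mul]
  field_simp
  ring

namespace Cfg

variable (S : Cfg)

instance : Fintype S.D.ι := S.D.fintype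
instance : NeZero S.D.P := ⟨S.D.P_pos.ne'⟩

/-- The length of a time slot. -/
def tau : ℝ := (1 - 5 * S.e) / S.D.G

/-- The start of the time slot of a run. -/
def t0 (g : Fin S.D.G) : ℝ := S.e + (g : ℕ) * S.tau

/-- The length of a run. -/
def len (r : S.D.ι) : ℝ := (S.D.w r : ℝ) / S.D.P

/-- The length of a connector. -/
def ell (r : S.D.ι) : ℝ := S.L * S.len r

/-- The length of the inner part. -/
def wd (r : S.D.ι) : ℝ := (1 - 2 * S.L) * S.len r

/-- The profile of the frequency on a run, without the corrections, relative to the top. -/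
def shape (r : S.D.ι) (u : ℝ) : ℝ :=
  -(S.e * clamp (u / (S.ell r / 2))) -
      (1 - 2 * S.e - S.t0 (S.D.time r)) * clamp ((u - S.ell r / 2) / (S.ell r / 2)) +
    S.tau * S.H (clamp ((u - S.ell r) / S.wd r)) +
    (1 - 2 * S.e - S.t0 (S.D.time r) - S.tau) *
      clamp ((u - (S.len r - S.ell r)) / (S.ell r / 2)) +
    S.e * clamp ((u - (S.len r - S.ell r / 2)) / (S.ell r / 2))

/-- The phase wanted at the start of the inner part. -/
def phi (r : S.D.ι) : ℝ := S.D.β r - S.z₀

/-- The correction at the first apex. -/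
def dl (N : ℝ) (r : S.D.ι) : ℝ :=
  Int.fract (S.phi r - N * ∫ u in (0 : ℝ)..S.ell r, (1 - S.e + S.shape r u)) / (S.ell r / 2)

/-- The correction at the second apex. -/
def dr (N : ℝ) (r : S.D.ι) : ℝ :=
  Int.fract (-S.phi r - N * ∫ u in S.ell r..S.len r, (1 - S.e + S.shape r u)) / (S.ell r / 2)

/-- The corrections on a run. -/
def corr (N : ℝ) (r : S.D.ι) (u : ℝ) : ℝ :=
  S.dl N r * tent (S.ell r / 2) (S.ell r / 2) u +
    S.dr N r * tent (S.ell r / 2) (S.len r - S.ell r / 2) u

/-- The frequency on a run, relative to the top. -/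
def bump (N : ℝ) (r : S.D.ι) (u : ℝ) : ℝ := N * S.shape r u + S.corr N r u

/-- A function of the position in a run, repeated on all runs and their mirror images. -/
def spread (F : S.D.ι → ℝ → ℝ) (θ : ℝ) : ℝ :=
  ∑ r, (F r (Int.fract (θ - (S.D.a r : ℝ) / S.D.P)) +
    F r (Int.fract (-θ - (S.D.a r : ℝ) / S.D.P)))

/-- The frequency. -/
def freq (N : ℝ) (θ : ℝ) : ℝ := N * (1 - S.e) + S.spread (S.bump N) θ

/-- The cell of `ZMod P` given by a run, an offset and an orientation. -/
def cell (x : (Σ r : S.D.ι, Fin (S.D.w r)) × Bool) : ZMod S.D.P :=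
  if x.2 then ((S.D.a x.1.1 + (x.1.2 : ℕ) : ℤ) : ZMod S.D.P)
  else ((-(S.D.a x.1.1 + (x.1.2 : ℕ)) - 1 : ℤ) : ZMod S.D.P)

theorem cell_bij : Function.Bijective S.cell := S.D.cover

theorem P_pos' : (0 : ℝ) < S.D.P := Nat.cast_pos.2 S.D.P_pos

theorem two_w_le (r : S.D.ι) : 2 * S.D.w r ≤ S.D.P := by
  have h := Fintype.card_of_bijective S.cell_bij
  rw [Fintype.card_prod, Fintype.card_sigma, Fintype.card_bool, ZMod.card] at h
  simp only [Fintype.card_fin] at h
  have := Finset.single_le_sum (f := fun r => S.D.w r) (fun _ _ => Nat.zero_le _)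
    (Finset.mem_univ r)
  omega

theorem tau_pos : 0 < S.tau :=
  div_pos (by linarith [S.e_small]) (Nat.cast_pos.2 S.D.G_pos)

theorem t0_bounds (g : Fin S.D.G) : S.e ≤ S.t0 g ∧ S.t0 g + S.tau ≤ 1 - 4 * S.e := by
  have h1 : ((g : ℕ) : ℝ) + 1 ≤ S.D.G := by exact_mod_cast g.2
  have h2 := S.tau_pos
  have h3 : (S.D.G : ℝ) * S.tau = 1 - 5 * S.e := by
    rw [tau, mul_div_cancel₀]
    exact Nat.cast_ne_zero.2 S.D.G_pos.ne'
  refine ⟨le_add_of_nonneg_right (by positivity), ?_⟩
  have := mul_le_mul_of_nonneg_right h1 h2.le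
  unfold t0
  linarith

theorem len_pos (r : S.D.ι) : 0 < S.len r :=
  div_pos (Nat.cast_pos.2 (S.D.w_pos r)) S.P_pos'

theorem len_le (r : S.D.ι) : S.len r ≤ 1 / 2 := by
  rw [len, div_le_iff₀ S.P_pos']
  have : ((2 * S.D.w r : ℕ) : ℝ) ≤ S.D.P := Nat.cast_le.2 (S.two_w_le r)
  push_cast at this
  linarith

theorem ell_pos (r : S.D.ι) : 0 < S.ell r := mul_pos S.L_pos (S.len_pos r)

theorem wd_pos (r : S.D.ι) : 0 < S.wd r :=
  mul_pos (by linarith [S.L_small]) (S.len_pos r)

theorem wd_eq (r : S.D.ι) : S.wd r = S.len r - 2 * S.ell r := by unfold wd ell; ring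

theorem continuous_shape (r : S.D.ι) : Continuous (S.shape r) := by
  have hc : Continuous clamp := by unfold clamp; fun_prop
  have hH := S.H_cont
  unfold shape
  fun_prop

theorem continuous_corr (N : ℝ) (r : S.D.ι) : Continuous (S.corr N r) := by
  have := continuous_tent
  unfold corr
  exact (continuous_const.mul (this _ _)).add (continuous_const.mul (this _ _))

theorem continuous_bump (N : ℝ) (r : S.D.ι) : Continuous (S.bump N r) :=
  (continuous_const.mul (S.continuous_shape r)).add (S.continuous_corr N r)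

theorem shape_out (r : S.D.ι) {u : ℝ} (hu : u ≤ 0 ∨ S.len r ≤ u) : S.shape r u = 0 := by
  have h1 := S.ell_pos r
  have h2 := S.wd_pos r
  have h3 := S.wd_eq r
  rcases hu with hu | hu
  · simp only [shape]
    rw [clamp_of_le (div_nonpos_of_nonpos_of_nonneg hu (by linarith)),
      clamp_of_le (div_nonpos_of_nonpos_of_nonneg (by linarith) (by linarith)),
      clamp_of_le (div_nonpos_of_nonpos_of_nonneg (by linarith) h2.le),
      clamp_of_le (div_nonpos_of_nonpos_of_nonneg (by linarith) (by linarith)),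
      clamp_of_le (div_nonpos_of_nonpos_of_nonneg (by linarith) (by linarith)), S.H_zero]
    ring
  · simp only [shape]
    rw [clamp_of_ge ((one_le_div (by linarith)).2 (by linarith)),
      clamp_of_ge ((one_le_div (by linarith)).2 (by linarith)),
      clamp_of_ge ((one_le_div h2).2 (by linarith)),
      clamp_of_ge ((one_le_div (by linarith)).2 (by linarith)),
      clamp_of_ge ((one_le_div (by linarith)).2 (by linarith)), S.H_one]
    ring

theorem corr_out (N : ℝ) (r : S.D.ι) {u : ℝ} (hu : u ≤ 0 ∨ S.len r ≤ u) : S.corr N r u = 0 := by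
  have h1 := S.ell_pos r
  have h2 := S.wd_pos r
  have h3 := S.wd_eq r
  rw [corr, tent_zero (by linarith), tent_zero (by linarith), mul_zero, mul_zero, add_zero]
  all_goals rcases hu with hu | hu
  all_goals first
    | (rw [abs_of_nonpos (by linarith)]; linarith)
    | (rw [abs_of_nonneg (by linarith)]; linarith)

theorem bump_out (N : ℝ) (r : S.D.ι) {u : ℝ} (hu : u ≤ 0 ∨ S.len r ≤ u) : S.bump N r u = 0 := by
  rw [bump, S.shape_out r hu, S.corr_out N r hu, mul_zero, add_zero]

theorem continuous_spread {F : S.D.ι → ℝ → ℝ} (hF : ∀ r, Continuous (F r))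
    (h0 : ∀ r u, u ≤ 0 ∨ S.len r ≤ u → F r u = 0) : Continuous (S.spread F) := by
  refine continuous_finsetSum _ fun r _ => ?_
  have hc : Continuous (F r ∘ Int.fract) := ContinuousOn.comp_fract'' (hF r).continuousOn (by
    rw [h0 r 0 (Or.inl le_rfl), h0 r 1 (Or.inr (by linarith [S.len_le r]))])
  exact (hc.comp (by fun_prop : Continuous fun θ : ℝ => θ - (S.D.a r : ℝ) / S.D.P)).add
    (hc.comp (by fun_prop : Continuous fun θ : ℝ => -θ - (S.D.a r : ℝ) / S.D.P))

theorem periodic_spread (F : S.D.ι → ℝ → ℝ) : Function.Periodic (S.spread F) 1 := fun θ => by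
  refine Finset.sum_congr rfl fun r _ => ?_
  rw [show θ + 1 - (S.D.a r : ℝ) / S.D.P = θ - (S.D.a r : ℝ) / S.D.P + 1 by ring,
    show -(θ + 1) - (S.D.a r : ℝ) / S.D.P = -θ - (S.D.a r : ℝ) / S.D.P - 1 by ring,
    Int.fract_add_one, Int.fract_sub_one]

theorem continuous_freq (N : ℝ) : Continuous (S.freq N) :=
  continuous_const.add
    (S.continuous_spread (S.continuous_bump N) fun r _ hu => S.bump_out N r hu)

theorem periodic_freq (N : ℝ) : Function.Periodic (S.freq N) 1 := fun θ => by
  rw [freq, freq, S.periodic_spread _ θ]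

theorem freq_neg (N θ : ℝ) : S.freq N (-θ) = S.freq N θ := by
  simp only [freq, spread, neg_neg]
  congr 1
  exact Finset.sum_congr rfl fun r _ => add_comm _ _

/-- On a run only its own term of a spread function remains. -/
theorem spread_eq {F : S.D.ι → ℝ → ℝ} (hF : ∀ r, Continuous (F r))
    (h0 : ∀ r u, u ≤ 0 ∨ S.len r ≤ u → F r u = 0) (r : S.D.ι) {θ : ℝ}
    (hθ : θ ∈ Set.Icc ((S.D.a r : ℝ) / S.D.P) (((S.D.a r : ℝ) + S.D.w r) / S.D.P)) :
    S.spread F θ = F r (θ - (S.D.a r : ℝ) / S.D.P) := by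
  have hP := S.P_pos'
  suffices h : Set.EqOn (S.spread F) (fun θ => F r (θ - (S.D.a r : ℝ) / S.D.P))
      (Set.Ico ((S.D.a r : ℝ) / S.D.P) (((S.D.a r : ℝ) + S.D.w r) / S.D.P)) by
    have hlt : (S.D.a r : ℝ) / S.D.P < ((S.D.a r : ℝ) + S.D.w r) / S.D.P :=
      (div_lt_div_iff_of_pos_right hP).2 (lt_add_of_pos_right _ (Nat.cast_pos.2 (S.D.w_pos r)))
    have := h.closure (S.continuous_spread hF h0) ((hF r).comp (by fun_prop))
    rw [closure_Ico hlt.ne] at this
    exact this hθ
  intro θ hθ
  obtain ⟨h1, h2⟩ := hθ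
  rw [div_le_iff₀ hP] at h1
  rw [lt_div_iff₀ hP] at h2
  obtain ⟨i, hi⟩ : ∃ i : Fin (S.D.w r), ⌊θ * S.D.P⌋ = S.D.a r + (i : ℕ) := by
    have e1 : S.D.a r ≤ ⌊θ * S.D.P⌋ := Int.le_floor.2 h1
    have e2 : ⌊θ * S.D.P⌋ < S.D.a r + S.D.w r := Int.floor_lt.2 (by push_cast; linarith)
    exact ⟨⟨(⌊θ * S.D.P⌋ - S.D.a r).toNat, by omega⟩, by simp; omega⟩
  have hcell : ∀ (r' : S.D.ι) (b : Bool), F r' (Int.fract ((if b then θ else -θ) -
      (S.D.a r' : ℝ) / S.D.P)) ≠ 0 → r' = r ∧ b = true := by
    intro r' b hne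
    set u := Int.fract ((if b then θ else -θ) - (S.D.a r' : ℝ) / S.D.P) with hu
    have hu0 : 0 < u := lt_of_not_ge fun hle => hne (h0 r' u (Or.inl hle))
    have hu1 : u < S.len r' := lt_of_not_ge fun hle => hne (h0 r' u (Or.inr hle))
    set z := ⌊(if b then θ else -θ) - (S.D.a r' : ℝ) / S.D.P⌋ with hz
    have hu' : (if b then θ else -θ) * (S.D.P : ℝ) = u * S.D.P + (S.D.a r' : ℝ) +
        (z : ℝ) * S.D.P := by
      rw [hu, Int.fract, ← hz]
      field_simp
      ring
    have hupos : 0 < u * S.D.P := mul_pos hu0 hP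
    have huw : u * S.D.P < (S.D.w r' : ℝ) := by
      rw [len, lt_div_iff₀ hP] at hu1
      exact hu1
    cases b with
    | true =>
      simp only [if_true] at hu'
      have hfl : ⌊θ * S.D.P⌋ = ⌊u * S.D.P⌋ + S.D.a r' + z * S.D.P := by
        rw [hu', show u * S.D.P + (S.D.a r' : ℝ) + (z : ℝ) * S.D.P =
          u * S.D.P + ((S.D.a r' + z * S.D.P : ℤ) : ℝ) by push_cast; ring, Int.floor_add_intCast]
        ring
      have e1 : 0 ≤ ⌊u * S.D.P⌋ := Int.floor_nonneg.2 hupos.le
      have e2 : ⌊u * S.D.P⌋ < S.D.w r' := Int.floor_lt.2 (by exact_mod_cast huw)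
      have heq : S.cell (⟨r', ⟨⌊u * S.D.P⌋.toNat, by omega⟩⟩, true) = S.cell (⟨r, i⟩, true) := by
        simp only [cell, if_true]
        rw [Int.toNat_of_nonneg e1, ← hi, hfl]
        push_cast
        rw [ZMod.natCast_self]
        ring
      have := S.cell_bij.1 heq
      simp only [Prod.mk.injEq] at this
      exact ⟨congrArg Sigma.fst this.1, rfl⟩
    | false =>
      exfalso
      simp only [Bool.false_eq_true, if_false] at hu'
      have hfl : ⌊θ * S.D.P⌋ = -⌈u * S.D.P⌉ - S.D.a r' - z * S.D.P := by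
        rw [show θ * (S.D.P : ℝ) = -(u * S.D.P) + ((-S.D.a r' - z * S.D.P : ℤ) : ℝ) by
          push_cast; linarith, Int.floor_add_intCast, Int.floor_neg]
        ring
      have e1 : 1 ≤ ⌈u * S.D.P⌉ := Int.one_le_ceil_iff.2 hupos
      have e2 : ⌈u * S.D.P⌉ ≤ S.D.w r' := Int.ceil_le.2 (by exact_mod_cast huw.le)
      have heq : S.cell (⟨r', ⟨(⌈u * S.D.P⌉ - 1).toNat, by omega⟩⟩, false) =
          S.cell (⟨r, i⟩, true) := by
        simp only [cell, if_true, Bool.false_eq_true, if_false]
        rw [Int.toNat_of_nonneg (by omega : 0 ≤ ⌈u * S.D.P⌉ - 1), ← hi, hfl]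
        push_cast
        rw [ZMod.natCast_self]
        ring
      have := S.cell_bij.1 heq
      simp at this
  rw [spread, Finset.sum_eq_single r]
  · have h3 : F r (Int.fract (-θ - (S.D.a r : ℝ) / S.D.P)) = 0 := by
      by_contra hne
      exact absurd (hcell r false (by simpa using hne)).2 Bool.false_ne_true
    rw [h3, add_zero]
    congr 1
    refine Int.fract_eq_self.2 ⟨?_, ?_⟩
    · rw [sub_nonneg, div_le_iff₀ hP]
      exact h1
    · have h4 : θ - (S.D.a r : ℝ) / S.D.P < S.len r := by
        rw [sub_lt_iff_lt_add, len, ← add_div, lt_div_iff₀ hP]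
        linarith
      linarith [S.len_le r]
  · intro r' _ hr'
    have h3 : F r' (Int.fract (θ - (S.D.a r' : ℝ) / S.D.P)) = 0 := by
      by_contra hne
      exact hr' (hcell r' true (by simpa using hne)).1
    have h4 : F r' (Int.fract (-θ - (S.D.a r' : ℝ) / S.D.P)) = 0 := by
      by_contra hne
      exact absurd (hcell r' false (by simpa using hne)).2 Bool.false_ne_true
    rw [h3, h4, add_zero]
  · simp

theorem freq_eq (N : ℝ) (r : S.D.ι) {u : ℝ} (h0 : 0 ≤ u) (h1 : u ≤ S.len r) :
    S.freq N ((S.D.a r : ℝ) / S.D.P + u) = N * (1 - S.e) + S.bump N r u := by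
  rw [freq, S.spread_eq (S.continuous_bump N) (fun r u hu => S.bump_out N r hu) r]
  · simp
  · unfold len at h1
    constructor
    · linarith
    · rw [add_div]
      linarith

/-- Every point is a point of a run, or of a mirror image, up to an integer. -/
theorem exists_run (θ : ℝ) : ∃ (r : S.D.ι) (u : ℝ) (n : ℤ), 0 ≤ u ∧ u ≤ S.len r ∧
    (θ = (S.D.a r : ℝ) / S.D.P + u + n ∨ θ = -((S.D.a r : ℝ) / S.D.P + u) + n) := by
  have hP := S.P_pos'
  have hx := Int.floor_le (θ * S.D.P)
  have hx' := Int.lt_floor_add_one (θ * S.D.P)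
  obtain ⟨⟨⟨r, i⟩, b⟩, hb⟩ := S.cell_bij.2 ((⌊θ * S.D.P⌋ : ℤ) : ZMod S.D.P)
  have hi : ((i : ℕ) : ℝ) + 1 ≤ S.D.w r := by exact_mod_cast i.2
  cases b with
  | true =>
    simp only [cell, if_true] at hb
    obtain ⟨n, hn⟩ := (ZMod.intCast_eq_intCast_iff_dvd_sub _ _ _).1 hb
    have hn' : (⌊θ * S.D.P⌋ : ℝ) = S.D.a r + (i : ℕ) + S.D.P * n := by
      have := congrArg (fun z : ℤ => (z : ℝ)) hn
      push_cast at this
      linarith
    refine ⟨r, θ - n - (S.D.a r : ℝ) / S.D.P, n, ?_, ?_, Or.inl (by ring)⟩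
    · rw [sub_nonneg, div_le_iff₀ hP]
      nlinarith [(Nat.cast_nonneg (i : ℕ) : (0 : ℝ) ≤ _)]
    · rw [sub_le_iff_le_add, len, ← add_div, le_div_iff₀ hP]
      nlinarith
  | false =>
    simp only [cell, Bool.false_eq_true, if_false] at hb
    obtain ⟨n, hn⟩ := (ZMod.intCast_eq_intCast_iff_dvd_sub _ _ _).1 hb
    have hn' : (⌊θ * S.D.P⌋ : ℝ) = -(S.D.a r + (i : ℕ)) - 1 + S.D.P * n := by
      have := congrArg (fun z : ℤ => (z : ℝ)) hn
      push_cast at this
      linarith
    refine ⟨r, -θ + n - (S.D.a r : ℝ) / S.D.P, n, ?_, ?_, Or.inr (by ring)⟩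
    · rw [sub_nonneg, div_le_iff₀ hP]
      nlinarith [(Nat.cast_nonneg (i : ℕ) : (0 : ℝ) ≤ _)]
    · rw [sub_le_iff_le_add, len, ← add_div, le_div_iff₀ hP]
      nlinarith

theorem freq_add_int (N θ : ℝ) (n : ℤ) : S.freq N (θ + n) = S.freq N θ := by
  simpa using (S.periodic_freq N).int_mul n θ

/-! ### The integrals over the runs -/

theorem integral_run (N : ℝ) (r : S.D.ι) {p q : ℝ} (h0 : 0 ≤ p) (hpq : p ≤ q)
    (h1 : q ≤ S.len r) :
    ∫ θ in ((S.D.a r : ℝ) / S.D.P + p)..((S.D.a r : ℝ) / S.D.P + q), S.freq N θ =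
      N * (∫ u in p..q, (1 - S.e + S.shape r u)) + ∫ u in p..q, S.corr N r u := by
  have hc : Continuous fun u => N * (1 - S.e + S.shape r u) :=
    continuous_const.mul (continuous_const.add (S.continuous_shape r))
  rw [← intervalIntegral.integral_comp_add_left (fun θ => S.freq N θ) ((S.D.a r : ℝ) / S.D.P),
    ← intervalIntegral.integral_const_mul, ← intervalIntegral.integral_add
      (hc.intervalIntegrable _ _) ((S.continuous_corr N r).intervalIntegrable _ _)]
  refine integral_congr fun u hu => ?_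
  rw [Set.uIcc_of_le hpq] at hu
  rw [S.freq_eq N r (h0.trans hu.1) (hu.2.trans h1), bump]
  ring

theorem integral_corr_left (N : ℝ) (r : S.D.ι) :
    ∫ u in (0 : ℝ)..S.ell r, S.corr N r u = S.dl N r * (S.ell r / 2) := by
  have h1 := S.ell_pos r
  have h2 := S.wd_eq r
  have h3 := S.wd_pos r
  have e0 : ∫ u in (0 : ℝ)..S.ell r, S.corr N r u =
      ∫ u in (0 : ℝ)..S.ell r, S.dl N r * tent (S.ell r / 2) (S.ell r / 2) u :=
    integral_congr fun u hu => by
      rw [Set.uIcc_of_le h1.le] at hu
      rw [corr, tent_zero (c := S.len r - S.ell r / 2) (by linarith) (by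
        rw [abs_of_nonpos (by linarith [hu.2])]; linarith [hu.2]), mul_zero, add_zero]
  have := integral_tent (h := S.ell r / 2) (c := S.ell r / 2) (by linarith)
  rw [sub_self, add_halves] at this
  rw [e0, intervalIntegral.integral_const_mul, this]

theorem integral_corr_right (N : ℝ) (r : S.D.ι) :
    ∫ u in S.ell r..S.len r, S.corr N r u = S.dr N r * (S.ell r / 2) := by
  have h1 := S.ell_pos r
  have h2 := S.wd_eq r
  have h3 := S.wd_pos r
  have e0 : ∫ u in S.ell r..S.len r, S.corr N r u =
      ∫ u in S.ell r..S.len r, S.dr N r * tent (S.ell r / 2) (S.len r - S.ell r / 2) u :=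
    integral_congr fun u hu => by
      rw [Set.uIcc_of_le (by linarith)] at hu
      rw [corr, tent_zero (c := S.ell r / 2) (by linarith) (by
        rw [abs_of_nonneg (by linarith [hu.1])]; linarith [hu.1]), mul_zero, zero_add]
  have hz : ∫ u in S.ell r..(S.len r - S.ell r), tent (S.ell r / 2) (S.len r - S.ell r / 2) u = 0 := by
    refine (integral_congr (g := fun _ => (0 : ℝ)) fun u hu => ?_).trans (by simp)
    rw [Set.uIcc_of_le (by linarith)] at hu
    exact tent_zero (by linarith) (by rw [abs_of_nonpos (by linarith [hu.2])]; linarith [hu.2])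
  have := integral_tent (h := S.ell r / 2) (c := S.len r - S.ell r / 2) (by linarith)
  rw [show S.len r - S.ell r / 2 - S.ell r / 2 = S.len r - S.ell r by ring, sub_add_cancel] at this
  rw [e0, intervalIntegral.integral_const_mul, ← integral_add_adjacent_intervals
    (b := S.len r - S.ell r) ((continuous_tent _ _).intervalIntegrable _ _)
    ((continuous_tent _ _).intervalIntegrable _ _), hz, this, zero_add]

/-- The phase gained up to the inner part is the wanted one, modulo integers. -/
theorem integral_left (N : ℝ) (r : S.D.ι) : ∃ m : ℤ,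
    ∫ θ in ((S.D.a r : ℝ) / S.D.P)..((S.D.a r : ℝ) / S.D.P + S.ell r), S.freq N θ =
      S.phi r + m := by
  have h1 := S.ell_pos r
  have h := S.integral_run N r le_rfl h1.le (by linarith [S.wd_eq r, S.wd_pos r])
  rw [add_zero, S.integral_corr_left, dl, div_mul_cancel₀ _ (by linarith), Int.fract] at h
  exact ⟨-⌊S.phi r - N * ∫ u in (0 : ℝ)..S.ell r, (1 - S.e + S.shape r u)⌋, by
    rw [h]; push_cast; ring⟩

/-- The phase gained on a run is an integer. -/
theorem integral_whole (N : ℝ) (r : S.D.ι) : ∃ m : ℤ,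
    ∫ θ in ((S.D.a r : ℝ) / S.D.P)..(((S.D.a r : ℝ) + S.D.w r) / S.D.P), S.freq N θ = m := by
  obtain ⟨m, hm⟩ := S.integral_left N r
  have h1 := S.ell_pos r
  have h := S.integral_run N r h1.le (by linarith [S.wd_eq r, S.wd_pos r]) le_rfl
  rw [S.integral_corr_right, dr, div_mul_cancel₀ _ (by linarith), Int.fract] at h
  refine ⟨m - ⌊-S.phi r - N * ∫ u in S.ell r..S.len r, (1 - S.e + S.shape r u)⌋, ?_⟩
  rw [add_div, show ((S.D.w r : ℝ) / S.D.P) = S.len r from rfl,
    ← integral_add_adjacent_intervals (b := (S.D.a r : ℝ) / S.D.P + S.ell r)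
      ((S.continuous_freq N).intervalIntegrable _ _) ((S.continuous_freq N).intervalIntegrable _ _),
    hm, h]
  push_cast
  ring

/-- The phase. -/
def phase (N θ : ℝ) : ℝ := ∫ t in (0 : ℝ)..θ, S.freq N t

theorem phase_neg (N θ : ℝ) : S.phase N (-θ) = -S.phase N θ := by
  rw [phase, phase, intervalIntegral.integral_symm]
  congr 1
  have := intervalIntegral.integral_comp_neg (a := 0) (b := θ) (fun t => S.freq N t)
  simp only [S.freq_neg, neg_zero] at this
  exact this.symm

/-- The phase gained on a mirrored run is an integer. -/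
theorem integral_mirror (N : ℝ) (r : S.D.ι) : ∃ m : ℤ,
    ∫ θ in (-(((S.D.a r : ℝ) + S.D.w r) / S.D.P))..(-((S.D.a r : ℝ) / S.D.P)), S.freq N θ = m := by
  obtain ⟨m, hm⟩ := S.integral_whole N r
  refine ⟨m, ?_⟩
  rw [← intervalIntegral.integral_comp_neg (fun θ => S.freq N θ)]
  simpa only [S.freq_neg] using hm

/-- A shift by a multiple of the period changes no integral of the frequency. -/
theorem integral_shift (N p q : ℝ) (n : ℤ) :
    ∫ θ in (p + n)..(q + n), S.freq N θ = ∫ θ in p..q, S.freq N θ := by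
  rw [← intervalIntegral.integral_comp_add_right (fun θ => S.freq N θ)]
  simp only [S.freq_add_int]

/-- The offset of a cell from the start of its run or mirrored run. -/
def off (x : (Σ r : S.D.ι, Fin (S.D.w r)) × Bool) : ℕ :=
  if x.2 then (x.1.2 : ℕ) else S.D.w x.1.1 - 1 - (x.1.2 : ℕ)

theorem cell_succ (x : (Σ r : S.D.ι, Fin (S.D.w r)) × Bool) (h : S.off x + 1 < S.D.w x.1.1) :
    ∃ x', S.cell x' = S.cell x + 1 ∧ S.off x' = S.off x + 1 ∧ x'.1.1 = x.1.1 := by
  obtain ⟨⟨r, i⟩, b⟩ := x
  cases b with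
  | true =>
    simp only [off, if_true] at h
    refine ⟨(⟨r, ⟨(i : ℕ) + 1, h⟩⟩, true), ?_, rfl, rfl⟩
    simp only [cell, if_true]
    push_cast
    ring
  | false =>
    simp only [off, Bool.false_eq_true, if_false] at h
    have hi := i.2
    refine ⟨(⟨r, ⟨(i : ℕ) - 1, by omega⟩⟩, false), ?_, ?_, rfl⟩
    · simp only [cell, Bool.false_eq_true, if_false]
      rw [Nat.cast_sub (by omega : 1 ≤ (i : ℕ))]
      push_cast
      ring
    · simp only [off, Bool.false_eq_true, if_false]
      omega

theorem cell_pred (x : (Σ r : S.D.ι, Fin (S.D.w r)) × Bool) (h : 0 < S.off x) :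
    ∃ x', S.cell x = S.cell x' + 1 ∧ S.off x = S.off x' + 1 ∧ x'.2 = x.2 := by
  obtain ⟨⟨r, i⟩, b⟩ := x
  cases b with
  | true =>
    simp only [off, if_true] at h
    refine ⟨(⟨r, ⟨(i : ℕ) - 1, by omega⟩⟩, true), ?_, ?_, rfl⟩
    · simp only [cell, if_true]
      rw [Nat.cast_sub (by omega : 1 ≤ (i : ℕ))]
      push_cast
      ring
    · simp only [off, if_true]
      omega
  | false =>
    simp only [off, Bool.false_eq_true, if_false] at h
    refine ⟨(⟨r, ⟨(i : ℕ) + 1, by omega⟩⟩, false), ?_, ?_, rfl⟩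
    · simp only [cell, Bool.false_eq_true, if_false]
      push_cast
      ring
    · simp only [off, Bool.false_eq_true, if_false]
      omega

theorem cell_mirror (x : (Σ r : S.D.ι, Fin (S.D.w r)) × Bool) :
    S.cell (x.1, !x.2) = -S.cell x - 1 := by
  obtain ⟨⟨r, i⟩, b⟩ := x
  cases b <;> simp [cell]

theorem off_zero (x : (Σ r : S.D.ι, Fin (S.D.w r)) × Bool) (hx : S.cell x = 0) : S.off x = 0 := by
  by_contra hne
  obtain ⟨x', h1, -, h3⟩ := S.cell_pred x (Nat.pos_of_ne_zero hne)
  have h2 : S.cell (x.1, !x.2) = S.cell x' := by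
    rw [S.cell_mirror, hx]
    linear_combination h1 - hx
  have := congrArg Prod.snd (S.cell_bij.1 h2)
  rw [h3] at this
  exact Bool.not_ne_self _ this

/-- The phase is an integer at every start of a run or mirrored run. -/
theorem phase_start (N : ℝ) (y : ℕ) :
    ∀ x, S.cell x = (y : ZMod S.D.P) → ∃ m : ℤ, S.phase N (((y : ℝ) - S.off x) / S.D.P) = m := by
  induction y with
  | zero =>
    intro x hx
    refine ⟨0, ?_⟩
    rw [S.off_zero x (by simpa using hx)]
    simp [phase]
  | succ y ih =>
    intro x' hx'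
    obtain ⟨x, hx⟩ := S.cell_bij.2 (y : ZMod S.D.P)
    obtain ⟨m, hm⟩ := ih x hx
    have hoff : S.off x < S.D.w x.1.1 := by
      have := x.1.2.2
      simp only [off]
      split_ifs <;> omega
    by_cases hnext : S.off x + 1 < S.D.w x.1.1
    · obtain ⟨x'', h1, h2, -⟩ := S.cell_succ x hnext
      obtain rfl := S.cell_bij.1 (show S.cell x'' = S.cell x' by rw [h1, hx, hx']; push_cast; ring)
      refine ⟨m, ?_⟩
      rw [h2, ← hm]
      push_cast
      congr 2
      ring
    · have hlast : S.off x + 1 = S.D.w x.1.1 := by omega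
      have hzero : S.off x' = 0 := by
        by_contra hne
        obtain ⟨x'', h1, h2, -⟩ := S.cell_pred x' (Nat.pos_of_ne_zero hne)
        obtain rfl := S.cell_bij.1 (show S.cell x'' = S.cell x by
          rw [hx]; rw [hx'] at h1; push_cast at h1; linear_combination -h1)
        obtain ⟨⟨r', i'⟩, b'⟩ := x'
        have hlt : S.off (⟨r', i'⟩, b') < S.D.w r' := by
          have := i'.2
          simp only [off]
          split_ifs <;> omega
        -- the successor stays inside the same run
        have hsame : r' = x''.1.1 := by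
          obtain ⟨⟨r'', i''⟩, b''⟩ := x''
          rcases Nat.lt_or_ge (S.off (⟨r'', i''⟩, b'') + 1) (S.D.w r'') with hh | hh
          · exact absurd hh hnext
          · by_contra hne'
            cases b' with
            | true =>
              simp only [off, if_true] at hne h2
              have hc : S.cell (⟨r', ⟨(i' : ℕ) - 1, by omega⟩⟩, true) =
                  S.cell (⟨r'', i''⟩, b'') := by
                have e : S.cell (⟨r', ⟨(i' : ℕ) - 1, by omega⟩⟩, true) + 1 =
                    S.cell (⟨r', i'⟩, true) := by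
                  simp only [cell, if_true]
                  rw [Nat.cast_sub (by omega : 1 ≤ (i' : ℕ))]
                  push_cast
                  ring
                rw [h1] at e
                linear_combination e
              exact hne' (congrArg (fun z => z.1.1) (S.cell_bij.1 hc))
            | false =>
              simp only [off, Bool.false_eq_true, if_false] at hne h2
              have hc : S.cell (⟨r', ⟨(i' : ℕ) + 1, by omega⟩⟩, false) =
                  S.cell (⟨r'', i''⟩, b'') := by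
                have e : S.cell (⟨r', ⟨(i' : ℕ) + 1, by omega⟩⟩, false) + 1 =
                    S.cell (⟨r', i'⟩, false) := by
                  simp only [cell, Bool.false_eq_true, if_false]
                  push_cast
                  ring
                rw [h1] at e
                linear_combination e
              exact hne' (congrArg (fun z => z.1.1) (S.cell_bij.1 hc))
        subst hsame
        omega
      rw [hzero]
      -- add the integral over the finished run
      obtain ⟨⟨r, i⟩, b⟩ := x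
      simp only at hlast
      have hj : ∃ m' : ℤ, ∫ θ in ((((y : ℕ) : ℝ) - S.off (⟨r, i⟩, b)) / S.D.P)..
          ((((y : ℕ) : ℝ) + 1) / S.D.P), S.freq N θ = m' := by
        have hP := S.P_pos'
        cases b with
        | true =>
          simp only [cell, if_true] at hx
          obtain ⟨n, hn⟩ := (ZMod.intCast_eq_intCast_iff_dvd_sub _ (y : ℤ) _).1
            (hx.trans (Int.cast_natCast y).symm)
          have hn' : ((y : ℕ) : ℝ) = S.D.a r + (i : ℕ) + S.D.P * n := by
            have := congrArg (fun z : ℤ => (z : ℝ)) hn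
            push_cast at this
            linarith
          obtain ⟨m', hm'⟩ := S.integral_whole N r
          refine ⟨m', ?_⟩
          have hw : ((i : ℕ) : ℝ) + 1 = S.D.w r := by
            simp only [off, if_true] at hlast
            exact_mod_cast hlast
          rw [← hm', ← S.integral_shift N ((S.D.a r : ℝ) / S.D.P)
            (((S.D.a r : ℝ) + S.D.w r) / S.D.P) n]
          congr 1
          · simp only [off, if_true]
            rw [hn']
            field_simp
            ring
          · rw [hn', ← hw]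
            field_simp
            ring
        | false =>
          simp only [cell, Bool.false_eq_true, if_false] at hx
          obtain ⟨n, hn⟩ := (ZMod.intCast_eq_intCast_iff_dvd_sub _ (y : ℤ) _).1
            (hx.trans (Int.cast_natCast y).symm)
          have hn' : ((y : ℕ) : ℝ) = -(S.D.a r + (i : ℕ)) - 1 + S.D.P * n := by
            have := congrArg (fun z : ℤ => (z : ℝ)) hn
            push_cast at this
            linarith
          obtain ⟨m', hm'⟩ := S.integral_mirror N r
          refine ⟨m', ?_⟩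
          have hi2 := i.2
          simp only [off, Bool.false_eq_true, if_false] at hlast
          have hi0 : (i : ℕ) = 0 := by omega
          have hoffv : ((S.off (⟨r, i⟩, false) : ℕ) : ℝ) = (S.D.w r : ℝ) - 1 := by
            simp only [off, Bool.false_eq_true, if_false]
            rw [hi0, Nat.sub_zero, Nat.cast_sub (by omega : 1 ≤ S.D.w r), Nat.cast_one]
          rw [← hm', ← S.integral_shift N (-(((S.D.a r : ℝ) + S.D.w r) / S.D.P))
            (-((S.D.a r : ℝ) / S.D.P)) n]
          congr 1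
          · rw [hoffv, hn', hi0]
            push_cast
            field_simp
            ring
          · rw [hn', hi0]
            push_cast
            field_simp
            ring
      obtain ⟨m', hm'⟩ := hj
      refine ⟨m + m', ?_⟩
      push_cast
      rw [sub_zero, ← hm', ← hm, phase, phase, integral_add_adjacent_intervals
        ((S.continuous_freq N).intervalIntegrable _ _) ((S.continuous_freq N).intervalIntegrable _ _)]

theorem integral_period (N : ℝ) : ∃ z : ℤ, ∫ t in (0 : ℝ)..1, S.freq N t = z := by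
  obtain ⟨x, hx⟩ := S.cell_bij.2 (0 : ZMod S.D.P)
  obtain ⟨m, hm⟩ := S.phase_start N S.D.P x (by rw [hx, ZMod.natCast_self])
  refine ⟨m, ?_⟩
  rw [S.off_zero x hx, Nat.cast_zero, sub_zero, div_self S.P_pos'.ne'] at hm
  exact hm

/-- The target function. -/
def U (N θ : ℝ) : ℂ := ch (S.phase N θ)

theorem periodic_U (N : ℝ) : Function.Periodic (S.U N) 1 :=
  periodic_phase (S.continuous_freq N) (S.periodic_freq N) (S.integral_period N)

theorem U_start (N : ℝ) (r : S.D.ι) : S.U N ((S.D.a r : ℝ) / S.D.P) = 1 := by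
  have hP : (0 : ℤ) < S.D.P := by exact_mod_cast S.D.P_pos
  set y := (S.D.a r % (S.D.P : ℤ)).toNat with hy
  have hy' : (y : ℤ) = S.D.a r % (S.D.P : ℤ) := Int.toNat_of_nonneg (Int.emod_nonneg _ hP.ne')
  obtain ⟨m, hm⟩ := S.phase_start N y (⟨r, ⟨0, S.D.w_pos r⟩⟩, true) (by
    change ((S.D.a r + ((0 : ℕ) : ℤ) : ℤ) : ZMod S.D.P) = _
    rw [Nat.cast_zero, add_zero, ← ZMod.intCast_mod (S.D.a r) S.D.P, ← hy', Int.cast_natCast])
  have hoff : S.off (⟨r, ⟨0, S.D.w_pos r⟩⟩, true) = 0 := rfl
  rw [hoff, Nat.cast_zero, sub_zero] at hm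
  have e : (S.D.a r : ℝ) / S.D.P = (y : ℝ) / S.D.P + ((S.D.a r / (S.D.P : ℤ) : ℤ) : ℝ) := by
    rw [eq_comm, div_add' _ _ _ S.P_pos'.ne']
    congr 1
    have := congrArg (fun z : ℤ => (z : ℝ)) (Int.emod_add_mul_ediv (S.D.a r) (S.D.P : ℤ))
    rw [← hy'] at this
    push_cast at this
    linarith
  rw [e, ← mul_one ((S.D.a r / (S.D.P : ℤ) : ℤ) : ℝ), (S.periodic_U N).int_mul _ _, U, hm, ch_int]

end Cfg

end Vale.Agent.P110.Full.Target
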