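import Vale.Agent.P110.Full.Main

/-!
Target, truncation: a unimodular function with continuous instantaneous frequency inside
`[B, N - B]` is reproduced by its first `N` Fourier coefficients, weighted by a trapezoid.
-/

noncomputable section

namespace Vale.Agent.P110.Full.Target

open Finset MeasureTheory intervalIntegral Real

theorem continuous_ch : Continuous ch := by unfold ch; fun_prop

theorem ch_int (n : ℤ) : ch n = 1 := by
  rw [ch, Complex.exp_eq_one_iff]
  exact ⟨n, by push_cast; ring⟩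

theorem ch_add_int (x : ℝ) (n : ℤ) : ch (x + n) = ch x := by rw [ch_add, ch_int, mul_one]

theorem ch_zero : ch 0 = 1 := by simpa using ch_int 0

theorem norm_ch_sub_one_le (x : ℝ) : ‖ch x - 1‖ ≤ 2 * π * |x| := by
  rw [show ch x = Complex.exp (Complex.I * ((2 * π * x : ℝ) : ℂ)) by rw [ch, mul_comm],
    Complex.norm_exp_I_mul_ofReal_sub_one, Real.norm_eq_abs, abs_mul,
    abs_of_pos (by norm_num : (0 : ℝ) < 2)]
  have := Real.abs_sin_le_abs (x := 2 * π * x / 2)
  rw [show 2 * π * x / 2 = π * x by ring] at this ⊢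
  rw [abs_mul, abs_of_pos pi_pos] at this
  linarith

theorem norm_ch_sub_le (x y : ℝ) : ‖ch x - ch y‖ ≤ 2 * π * |x - y| := by
  have h : ch x - ch y = ch y * (ch (x - y) - 1) := by
    rw [mul_sub, mul_one, ← ch_add, add_sub_cancel]
  rw [h, norm_mul, norm_ch, one_mul]
  exact norm_ch_sub_one_le _

theorem le_norm_ch_sub_one {s : ℝ} (hs : |s| ≤ 1 / 2) : 4 * |s| ≤ ‖ch s - 1‖ := by
  rw [show ch s = Complex.exp (Complex.I * ((2 * π * s : ℝ) : ℂ)) by rw [ch, mul_comm],
    Complex.norm_exp_I_mul_ofReal_sub_one, Real.norm_eq_abs, abs_mul,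
    abs_of_pos (by norm_num : (0 : ℝ) < 2), show 2 * π * s / 2 = π * s by ring]
  have h := Real.mul_abs_le_abs_sin (x := π * s) (by
    rw [abs_mul, abs_of_pos pi_pos]
    calc π * |s| ≤ π * (1 / 2) := mul_le_mul_of_nonneg_left hs pi_pos.le
      _ = π / 2 := by ring)
  rw [abs_mul, abs_of_pos pi_pos, show 2 / π * (π * |s|) = 2 * |s| by field_simp] at h
  linarith

theorem integral_ch (n : ℤ) : ∫ s in (-(1 / 2 : ℝ))..(1 / 2), ch (n * s) =
    if n = 0 then 1 else 0 := by
  split_ifs with h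
  · subst h
    simp [ch_zero]
    norm_num
  · have hc : ((2 * π * n : ℝ) : ℂ) * Complex.I ≠ 0 := by
      simp [pi_ne_zero, Complex.I_ne_zero, h]
    have he : ∀ s : ℝ, ch (n * s) = Complex.exp (((2 * π * n : ℝ) : ℂ) * Complex.I * s) := by
      intro s
      rw [ch]
      congr 1
      push_cast
      ring
    simp only [he]
    rw [integral_exp_mul_complex hc, ← he, ← he, div_eq_zero_iff]
    left
    rw [sub_eq_zero, show (n : ℝ) * (1 / 2) = (n : ℝ) * -(1 / 2) + (n : ℤ) by ring, ch_add_int]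

/-- A finite geometric sum of characters. -/
def geom (n : ℕ) (s : ℝ) : ℂ := ∑ i ∈ range n, ch (i * s)

theorem norm_geom_le (n : ℕ) (s : ℝ) : ‖geom n s‖ ≤ n := by
  refine (norm_sum_le _ _).trans ?_
  simp [norm_ch]

theorem norm_geom_mul_le (n : ℕ) {s : ℝ} (hs : |s| ≤ 1 / 2) : ‖geom n s‖ * (4 * |s|) ≤ 2 := by
  have h : geom n s * (ch s - 1) = ch s ^ n - 1 := by
    rw [geom, ← geom_sum_mul]
    simp only [ch_pow]
  calc ‖geom n s‖ * (4 * |s|) ≤ ‖geom n s‖ * ‖ch s - 1‖ :=
        mul_le_mul_of_nonneg_left (le_norm_ch_sub_one hs) (norm_nonneg _)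
    _ = ‖ch s ^ n - 1‖ := by rw [← norm_mul, h]
    _ ≤ ‖ch s ^ n‖ + ‖(1 : ℂ)‖ := norm_sub_le _ _
    _ = 2 := by rw [norm_pow, norm_ch, one_pow, norm_one]; norm_num

/-- The trapezoid weight: the convolution of two boxes of lengths `A` and `B`, divided by `B`. -/
def box (A B k : ℕ) : ℝ :=
  (((range A ×ˢ range B).filter fun x => x.1 + x.2 = k).card : ℝ) / B

theorem box_nonneg (A B k : ℕ) : 0 ≤ box A B k := by unfold box; positivity

theorem box_le_one (A B k : ℕ) : box A B k ≤ 1 := by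
  refine div_le_one_of_le₀ ?_ (Nat.cast_nonneg B)
  calc (((range A ×ˢ range B).filter fun x => x.1 + x.2 = k).card : ℝ) ≤ ((range B).card : ℕ) := by
        refine Nat.cast_le.2 (Finset.card_le_card_of_injOn Prod.snd (fun x hx => ?_) ?_)
        · simp only [coe_filter, Set.mem_ofPred_eq, mem_product] at hx
          exact hx.1.2
        · intro x hx y hy h
          simp only [coe_filter, Set.mem_ofPred_eq, mem_product] at hx hy
          exact Prod.ext (by omega) h
    _ = B := by simp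

theorem box_eq_one {A B k : ℕ} (hB : 0 < B) (h1 : B ≤ k + 1) (h2 : k < A) : box A B k = 1 := by
  have : ((range A ×ˢ range B).filter fun x => x.1 + x.2 = k).card = B := by
    refine (Finset.card_bij (fun x _ => x.2) (fun x hx => ?_) ?_ fun j hj => ?_).trans (card_range B)
    · exact (mem_product.1 (mem_filter.1 hx).1).2
    · intro x hx y hy h
      have e1 := (mem_filter.1 hx).2
      have e2 := (mem_filter.1 hy).2
      exact Prod.ext (by omega) h
    · rw [mem_range] at hj
      exact ⟨(k - j, j), mem_filter.2 ⟨mem_product.2 ⟨mem_range.2 (by omega), mem_range.2 hj⟩,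
        by simp only; omega⟩, rfl⟩
  rw [box, this, div_self]
  exact_mod_cast hB.ne'

theorem geom_mul_eq (A B N : ℕ) (hAB : A + B ≤ N + 1) (s : ℝ) :
    geom A s * geom B s / B = ∑ k ∈ range N, (box A B k : ℂ) * ch (k * s) := by
  rw [geom, geom, sum_mul_sum, ← sum_product',
    ← sum_fiberwise_of_maps_to (g := fun x : ℕ × ℕ => x.1 + x.2) (t := range N) (fun x hx => by
      simp only [mem_product, mem_range] at hx ⊢
      omega), Finset.sum_div]
  refine sum_congr rfl fun k _ => ?_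
  rw [sum_congr rfl (g := fun _ => ch (k * s)) (fun x hx => by
    rw [← ch_add, ← add_mul, ← Nat.cast_add, (mem_filter.1 hx).2]), sum_const, nsmul_eq_mul, box]
  push_cast
  ring

theorem norm_kernel_le {A B : ℕ} (hB : 0 < B) (s : ℝ) :
    ‖geom A s * geom B s / B‖ ≤ A := by
  rw [norm_div, norm_mul, Complex.norm_natCast, div_le_iff₀ (by exact_mod_cast hB)]
  exact mul_le_mul (norm_geom_le A s) (norm_geom_le B s) (norm_nonneg _) (Nat.cast_nonneg A)

theorem norm_kernel_le' {A B : ℕ} (hB : 0 < B) {s : ℝ} (hs : |s| ≤ 1 / 2) (h0 : s ≠ 0) :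
    ‖geom A s * geom B s / B‖ ≤ (4 * B : ℝ)⁻¹ * s ^ (-2 : ℤ) := by
  have h1 := norm_geom_mul_le A hs
  have h2 := norm_geom_mul_le B hs
  have hs' : 0 < 4 * |s| := by positivity
  rw [norm_div, norm_mul, Complex.norm_natCast, zpow_neg, zpow_ofNat, ← sq_abs,
    div_le_iff₀ (by exact_mod_cast hB)]
  rw [← le_div_iff₀ hs'] at h1 h2
  refine (mul_le_mul h1 h2 (norm_nonneg _) (by positivity)).trans (le_of_eq ?_)
  have : (B : ℝ) ≠ 0 := by exact_mod_cast hB.ne'
  field_simp
  ring

/-- The `k`-th Fourier coefficient of `ch (∫ f)`. -/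
def coefU (f : ℝ → ℝ) (k : ℕ) : ℂ :=
  ∫ φ in (0 : ℝ)..1, ch (∫ t in (0 : ℝ)..φ, f t) * ch (-((k : ℝ) * φ))

theorem periodic_phase {f : ℝ → ℝ} (hf : Continuous f) (hper : Function.Periodic f 1)
    (hint : ∃ z : ℤ, ∫ t in (0 : ℝ)..1, f t = z) :
    Function.Periodic (fun θ => ch (∫ t in (0 : ℝ)..θ, f t)) 1 := by
  intro θ
  obtain ⟨z, hz⟩ := hint
  simp only
  rw [← integral_add_adjacent_intervals (hf.intervalIntegrable 0 θ)
    (hf.intervalIntegrable θ (θ + 1)), hper.intervalIntegral_add_eq θ 0, zero_add, hz, ch_add_int]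

/-- The weighted Fourier sum reproduces `ch (∫ f)` if the frequency `f` stays inside `[B, N - B]`
and varies by at most `ω` at distance `a`. -/
theorem kernel_flat {f : ℝ → ℝ} (hf : Continuous f) (hper : Function.Periodic f 1)
    (hint : ∃ z : ℤ, ∫ t in (0 : ℝ)..1, f t = z) {N B : ℕ} (hB : 0 < B)
    (hrange : ∀ t, (B : ℝ) ≤ f t ∧ f t ≤ (N : ℝ) - B) {a ω : ℝ} (ha : 0 < a) (ha' : a ≤ 1 / 2)
    (hω : ∀ x y, |x - y| ≤ a → |f x - f y| ≤ ω) (θ : ℝ) :
    ‖(∑ k : Fin N, (box (N + 1 - B) B k : ℂ) * coefU f k * ch ((k : ℕ) * θ)) -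
        ch (∫ t in (0 : ℝ)..θ, f t)‖ ≤ 4 * π * N * a ^ 2 * (ω + 1) + 1 / (B * a) := by
  set U : ℝ → ℂ := fun θ => ch (∫ t in (0 : ℝ)..θ, f t) with hU
  have hUc : Continuous U :=
    continuous_ch.comp (intervalIntegral.continuous_primitive hf.intervalIntegrable 0)
  have hUp : Function.Periodic U 1 := periodic_phase hf hper hint
  have hBN : 2 * B ≤ N := by
    have h1 := (hrange 0).1.trans (hrange 0).2
    have : ((2 * B : ℕ) : ℝ) ≤ (N : ℕ) := by push_cast; linarith
    exact_mod_cast this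
  set A := N + 1 - B with hA
  set K : ℝ → ℂ := fun s => geom A s * geom B s / B with hK
  have hKc : Continuous K := by
    have : ∀ n, Continuous fun s => geom n s := fun n => by
      unfold geom
      exact continuous_finsetSum _ fun i _ => continuous_ch.comp (continuous_const.mul continuous_id)
    exact ((this A).mul (this B)).div_const _
  have hKsum : ∀ s, K s = ∑ k : Fin N, (box A B k : ℂ) * ch ((k : ℕ) * s) := fun s => by
    rw [hK]
    simp only
    rw [geom_mul_eq A B N (by omega), ← Fin.sum_univ_eq_sum_range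
      (fun k : ℕ => (box A B k : ℂ) * ch (k * s))]
  -- the sum as a convolution
  have hconv : (∑ k : Fin N, (box A B k : ℂ) * coefU f k * ch ((k : ℕ) * θ)) =
      ∫ s in (-(1 / 2 : ℝ))..(1 / 2), U (θ - s) * K s := by
    have h1 : ∫ s in (-(1 / 2 : ℝ))..(1 / 2), U (θ - s) * K s =
        ∫ φ in (θ - 1 / 2)..(θ + 1 / 2), U φ * K (θ - φ) := by
      have := intervalIntegral.integral_comp_sub_left
        (fun φ => U φ * K (θ - φ)) θ (a := -(1 / 2 : ℝ)) (b := 1 / 2)
      simp only [sub_sub_cancel, sub_neg_eq_add] at this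
      exact this
    have hper' : Function.Periodic (fun φ => U φ * K (θ - φ)) 1 := fun φ => by
      simp only [hUp φ, hKsum]
      congr 1
      refine sum_congr rfl fun k _ => ?_
      congr 1
      rw [show ((k : ℕ) : ℝ) * (θ - (φ + 1)) = ((k : ℕ) : ℝ) * (θ - φ) + ((-(k : ℕ) : ℤ) : ℝ) by
        push_cast; ring, ch_add_int]
    rw [h1, show θ + 1 / 2 = θ - 1 / 2 + 1 by ring, hper'.intervalIntegral_add_eq (θ - 1 / 2) 0,
      zero_add]
    simp only [hKsum, mul_sum, coefU]
    have hck : ∀ k : Fin N,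
        Continuous fun φ : ℝ => U φ * ((box A B k : ℂ) * ch (((k : ℕ) : ℝ) * (θ - φ))) := fun k =>
      hUc.mul (continuous_const.mul (continuous_ch.comp (by fun_prop)))
    rw [intervalIntegral.integral_finsetSum fun k _ => (hck k).intervalIntegrable _ _]
    refine sum_congr rfl fun k _ => ?_
    rw [← intervalIntegral.integral_const_mul, ← intervalIntegral.integral_mul_const]
    refine integral_congr fun φ _ => ?_
    simp only [hU]
    rw [show ((k : ℕ) : ℝ) * (θ - φ) = -(((k : ℕ) : ℝ) * φ) + ((k : ℕ) : ℝ) * θ by ring, ch_add]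
    ring
  set j : ℕ := ⌊f θ⌋.toNat with hj
  have hjf : (j : ℝ) ≤ f θ ∧ f θ < j + 1 := by
    have h0 : (0 : ℤ) ≤ ⌊f θ⌋ := Int.floor_nonneg.2 ((Nat.cast_nonneg B).trans (hrange θ).1)
    have e : ((j : ℕ) : ℝ) = (⌊f θ⌋ : ℝ) := by
      rw [hj]; exact_mod_cast congrArg (fun z : ℤ => (z : ℝ)) (Int.toNat_of_nonneg h0)
    rw [e]
    exact ⟨Int.floor_le _, Int.lt_floor_add_one _⟩
  have hjB : B ≤ j + 1 ∧ j < A := by
    constructor
    · have : ((B : ℕ) : ℝ) ≤ ((j + 1 : ℕ) : ℝ) := by push_cast; linarith [(hrange θ).1]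
      exact_mod_cast this
    · have : ((j + B : ℕ) : ℝ) ≤ (N : ℕ) := by push_cast; linarith [(hrange θ).2]
      have : j + B ≤ N := by exact_mod_cast this
      omega
  have hrep : U θ = ∫ s in (-(1 / 2 : ℝ))..(1 / 2), U θ * ch (-((j : ℝ) * s)) * K s := by
    simp only [hKsum, mul_sum]
    have hck : ∀ k : Fin N, Continuous fun s : ℝ => U θ * ch (-((j : ℝ) * s)) *
        ((box A B k : ℂ) * ch (((k : ℕ) : ℝ) * s)) := fun k =>
      (continuous_const.mul (continuous_ch.comp (by fun_prop))).mul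
        (continuous_const.mul (continuous_ch.comp (by fun_prop)))
    rw [intervalIntegral.integral_finsetSum fun k _ => (hck k).intervalIntegrable _ _]
    have hterm : ∀ k : Fin N, (∫ s in (-(1 / 2 : ℝ))..(1 / 2),
        U θ * ch (-((j : ℝ) * s)) * ((box A B k : ℂ) * ch ((k : ℕ) * s))) =
        U θ * (box A B k : ℂ) * if (k : ℕ) = j then 1 else 0 := by
      intro k
      have h : ((k : ℕ) : ℤ) - j = 0 ↔ (k : ℕ) = j := by omega
      have := integral_ch (((k : ℕ) : ℤ) - j)
      simp only [h] at this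
      rw [← this, ← intervalIntegral.integral_const_mul]
      refine integral_congr fun s _ => ?_
      rw [show ((((k : ℕ) : ℤ) - j : ℤ) : ℝ) * s = -((j : ℝ) * s) + ((k : ℕ) : ℝ) * s by
        push_cast; ring, ch_add]
      ring
    simp only [hterm]
    rw [Finset.sum_eq_single (⟨j, by omega⟩ : Fin N)]
    · rw [box_eq_one hB hjB.1 hjB.2]
      simp
    · intro k _ hk
      rw [if_neg (fun e => hk (Fin.ext e)), mul_zero]
    · simp
  change ‖_ - U θ‖ ≤ _
  have hc1 : Continuous fun s => U (θ - s) * K s :=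
    (hUc.comp (continuous_const.sub continuous_id)).mul hKc
  have hc2 : Continuous fun s => U θ * ch (-((j : ℝ) * s)) * K s :=
    (continuous_const.mul (continuous_ch.comp (by fun_prop))).mul hKc
  rw [hconv, hrep, ← intervalIntegral.integral_sub (hc1.intervalIntegrable _ _)
    (hc2.intervalIntegrable _ _)]
  set D : ℝ → ℂ := fun s => U (θ - s) * K s - U θ * ch (-((j : ℝ) * s)) * K s with hD
  have hDc : Continuous D := hc1.sub hc2
  have hAN : (A : ℝ) ≤ N := by exact_mod_cast (by omega : A ≤ N)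
  have hω0 : 0 ≤ ω := by simpa using hω 0 0 (by simpa using ha.le)
  have hfact : ∀ s, ‖D s‖ = ‖U (θ - s) - U θ * ch (-((j : ℝ) * s))‖ * ‖K s‖ := fun s => by
    rw [← norm_mul, sub_mul]
  have hmid : ‖∫ s in (-a)..a, D s‖ ≤ (N * (2 * π * (a * (ω + 1)))) * |a - -a| := by
    refine norm_integral_le_of_norm_le_const fun s hs => ?_
    rw [Set.uIoc_of_le (by linarith)] at hs
    have hsa : |s| ≤ a := abs_le.2 ⟨hs.1.le, hs.2⟩
    rw [hfact, mul_comm (N : ℝ)]
    refine mul_le_mul ?_ ((norm_kernel_le hB s).trans hAN) (norm_nonneg _) (by positivity)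
    simp only [hU]
    rw [← ch_add]
    refine (norm_ch_sub_le _ _).trans (mul_le_mul_of_nonneg_left ?_ (by positivity))
    have h3 : (∫ t in (0 : ℝ)..(θ - s), f t) - ((∫ t in (0 : ℝ)..θ, f t) + -((j : ℝ) * s)) =
        ∫ t in θ..(θ - s), (f t - j) := by
      rw [intervalIntegral.integral_sub (hf.intervalIntegrable _ _) intervalIntegrable_const,
        intervalIntegral.integral_const, ← intervalIntegral.integral_interval_sub_left
          (hf.intervalIntegrable 0 (θ - s)) (hf.intervalIntegrable 0 θ), smul_eq_mul]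
      ring
    rw [h3]
    have h4 := norm_integral_le_of_norm_le_const (f := fun t => f t - (j : ℝ)) (a := θ)
      (b := θ - s) (C := ω + 1) fun t ht => by
        have hta : |t - θ| ≤ a := by
          rw [Set.mem_uIoc] at ht
          have := abs_le.1 hsa
          rw [abs_le]
          rcases ht with ht | ht <;> constructor <;> linarith [ht.1, ht.2]
        have := abs_le.1 (hω t θ hta)
        rw [Real.norm_eq_abs, abs_le]
        constructor <;> linarith [hjf.1, hjf.2]
    rw [Real.norm_eq_abs, sub_sub_cancel_left, abs_neg] at h4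
    refine h4.trans ?_
    rw [mul_comm a]
    exact mul_le_mul_of_nonneg_left hsa (by linarith)
  have htail : ∀ p q : ℝ, p ≤ q → (∀ s ∈ Set.Icc p q, |s| ≤ 1 / 2 ∧ s ≠ 0) →
      ‖∫ s in p..q, D s‖ ≤ (2 * B : ℝ)⁻¹ * ((p⁻¹) - q⁻¹) := by
    intro p q hpq hs
    have h0 : (0 : ℝ) ∉ Set.uIcc p q := by
      rw [Set.uIcc_of_le hpq]
      exact fun h => (hs 0 h).2 rfl
    refine (intervalIntegral.norm_integral_le_integral_norm hpq).trans ?_
    refine (intervalIntegral.integral_mono_on hpq (hDc.norm.intervalIntegrable _ _)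
      ((intervalIntegral.intervalIntegrable_zpow (Or.inr h0)).const_mul _) fun s hsI => ?_).trans
      (le_of_eq (?_ : (∫ s in p..q, (2 * B : ℝ)⁻¹ * s ^ (-2 : ℤ)) = _))
    · obtain ⟨h1, h2⟩ := hs s hsI
      rw [hfact]
      refine (mul_le_mul (show _ ≤ (2 : ℝ) from ?_) (norm_kernel_le' hB h1 h2) (norm_nonneg _)
        (by norm_num)).trans (le_of_eq (by ring))
      refine (norm_sub_le _ _).trans (le_of_eq ?_)
      simp only [hU, norm_mul, norm_ch]
      norm_num
    · rw [intervalIntegral.integral_const_mul, integral_zpow (Or.inr ⟨by norm_num, h0⟩)]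
      simp only [show (-2 : ℤ) + 1 = -1 by norm_num, zpow_neg_one]
      push_cast
      ring
  change ‖∫ s in (-(1 / 2 : ℝ))..(1 / 2), D s‖ ≤ _
  rw [← integral_add_adjacent_intervals (b := -a) (hDc.intervalIntegrable _ _)
    (hDc.intervalIntegrable _ _), ← integral_add_adjacent_intervals (a := -a) (b := a)
    (hDc.intervalIntegrable _ _) (hDc.intervalIntegrable _ _)]
  have ht1 := htail (-(1 / 2)) (-a) (by linarith) fun s hs => ⟨abs_le.2 ⟨hs.1, by linarith [hs.2]⟩,
    by linarith [hs.2]⟩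
  have ht2 := htail a (1 / 2) ha' fun s hs => ⟨abs_le.2 ⟨by linarith [hs.1], hs.2⟩,
    by linarith [hs.1]⟩
  rw [← add_assoc]
  refine norm_add₃_le.trans ?_
  rw [abs_of_nonneg (by linarith : (0 : ℝ) ≤ a - -a)] at hmid
  have hB' : (0 : ℝ) < B := by exact_mod_cast hB
  have e1 : (2 * B : ℝ)⁻¹ * ((-(1 / 2))⁻¹ - (-a)⁻¹) + (2 * B : ℝ)⁻¹ * (a⁻¹ - (1 / 2 : ℝ)⁻¹) =
      1 / (B * a) - 2 / B := by
    field_simp
    ring
  have : 0 < 2 / (B : ℝ) := by positivity
  have e2 : (N : ℝ) * (2 * π * (a * (ω + 1))) * (a - -a) = 4 * π * N * a ^ 2 * (ω + 1) := by ring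
  linarith

end Vale.Agent.P110.Full.Target
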