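import Vale.Agent.P110.Full.Target.Run

/-!
Module Target: tiling data with bounded slots gives flat polynomials with coefficients in
`[-1, 1]`.
-/

noncomputable section

namespace Vale.Agent.P110.Full.Target

open Finset MeasureTheory intervalIntegral Real

/-- A continuous periodic function is uniformly continuous. -/
theorem exists_modulus {F : ℝ → ℝ} (hF : Continuous F) (hper : Function.Periodic F 1) {ω : ℝ}
    (hω : 0 < ω) : ∃ δ > 0, ∀ x y : ℝ, |x - y| ≤ δ → |F x - F y| ≤ ω := by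
  obtain ⟨δ, hδ, h⟩ := Metric.uniformContinuousOn_iff.1
    ((isCompact_Icc (a := (-1 : ℝ)) (b := 2)).uniformContinuousOn_of_continuous hF.continuousOn)
    ω hω
  refine ⟨min (δ / 2) 1, lt_min (by linarith) one_pos, fun x y hxy => ?_⟩
  have h1 := hxy.trans (min_le_left _ _)
  have h2 := abs_le.1 (hxy.trans (min_le_right _ _))
  have hx := Int.floor_le x
  have hx' := Int.lt_floor_add_one x
  have hsub : ∀ z : ℝ, F (z - (⌊x⌋ : ℤ)) = F z := fun z => by
    simpa using hper.sub_int_mul_eq (x := z) ⌊x⌋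
  have := h (x - (⌊x⌋ : ℤ)) ⟨by linarith, by linarith⟩ (y - (⌊x⌋ : ℤ))
    ⟨by linarith [h2.2], by linarith [h2.1]⟩
    (by rw [Real.dist_eq, sub_sub_sub_cancel_right]; linarith)
  rw [Real.dist_eq, hsub, hsub] at this
  exact this.le

namespace Cfg

variable (S : Cfg)

/-- The continuous shape of the frequency, independent of `N`. -/
def limitFreq (θ : ℝ) : ℝ := 1 - S.e + S.spread S.shape θ

theorem continuous_limitFreq : Continuous S.limitFreq :=
  continuous_const.add (S.continuous_spread S.continuous_shape fun r _ hu => S.shape_out r hu)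

theorem periodic_limitFreq : Function.Periodic S.limitFreq 1 := fun θ => by
  rw [limitFreq, limitFreq, S.periodic_spread _ θ]

theorem abs_freq_sub (N θ : ℝ) :
    |S.freq N θ - N * S.limitFreq θ| ≤ ∑ r, 4 * (1 / (S.ell r / 2)) := by
  have e : S.freq N θ - N * S.limitFreq θ = S.spread (S.corr N) θ := by
    rw [freq, limitFreq, sub_eq_iff_eq_add]
    simp only [spread, bump, mul_add, Finset.mul_sum, Finset.sum_add_distrib]
    ring
  rw [e]
  have hc : ∀ r u, |S.corr N r u| ≤ 2 * (1 / (S.ell r / 2)) := fun r u => by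
    have h := S.ell_pos r
    have hl := S.dl_mem (N := N) r
    have hr := S.dr_mem (N := N) r
    have t1 := tent_mem (by linarith : 0 < S.ell r / 2) (S.ell r / 2) u
    have t2 := tent_mem (by linarith : 0 < S.ell r / 2) (S.len r - S.ell r / 2) u
    rw [corr, abs_of_nonneg (add_nonneg (mul_nonneg hl.1 t1.1) (mul_nonneg hr.1 t2.1))]
    nlinarith [mul_le_mul hl.2 t1.2 t1.1 (hl.1.trans hl.2),
      mul_le_mul hr.2 t2.2 t2.1 (hr.1.trans hr.2)]
  refine (Finset.abs_sum_le_sum_abs _ _).trans (Finset.sum_le_sum fun r _ => ?_)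
  refine (abs_add_le _ _).trans ?_
  linarith [hc r (Int.fract (θ - (S.D.a r : ℝ) / S.D.P)),
    hc r (Int.fract (-θ - (S.D.a r : ℝ) / S.D.P))]

/-- At large lengths the rescaled coefficients of the target give a flat polynomial with
coefficients in `[-1, 1]`. -/
theorem exists_flat {η : ℝ} (hη : 0 < η) {C : ℝ} (hC0 : 0 ≤ C)
    (hC : ∀ σ b p q : ℝ, p ≤ q → σ ≠ 0 →
      ‖∫ x in p..q, ch (σ * x ^ 2 / 2 + b * x)‖ ≤ C / Real.sqrt |σ|)
    {ρ Λ : ℝ → ℝ} {ε B₁ B₂ E M₀ : ℝ}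
    (hρ : ∀ κ, |ρ κ| ≤ B₁) (hρ0 : ∀ κ ∉ Set.Ioo (0 : ℝ) 1, ρ κ = 0)
    (hJ : ∀ M ≥ M₀, ∀ κ : ℝ,
      ‖(Real.sqrt M : ℂ) * (∫ x in (0 : ℝ)..1, ch (M * ((∫ y in (0 : ℝ)..x, S.H y) - κ * x))) -
        (ρ κ : ℂ) * ch S.z₀ * ch (M * Λ κ)‖ ≤ ε)
    (hB : ∀ g l X, |S.D.slot g l X| ≤ B₂)
    (hE : ∀ r, Real.sqrt (S.wd r / S.tau) * ε + 4 * (C * Real.sqrt (S.ell r / S.e)) ≤ E)
    (hK : Real.sqrt ((1 - 2 * S.L) / (1 - 5 * S.e)) * (B₁ * B₂) +
      2 * Fintype.card S.D.ι * E ≤ 1 + η / 2) :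
    ∃ N₀ : ℕ, ∀ N ≥ N₀, ∃ c : Fin N → ℝ, (∀ k, |c k| ≤ 1) ∧
      ∀ θ : ℝ, |‖poly c θ‖ - Real.sqrt N| ≤ η * Real.sqrt N := by
  have he := S.e_pos
  have hπ := Real.pi_pos
  set Cc := ∑ r, 4 * (1 / (S.ell r / 2)) with hCc
  set A := 16 / (S.e * η) with hA
  have hA0 : 0 < A := by positivity
  set ω₀ := η / (64 * π * A ^ 2) with hω₀
  obtain ⟨δ, hδ, hmod⟩ := exists_modulus S.continuous_limitFreq S.periodic_limitFreq
    (by positivity : 0 < ω₀)
  -- everything that `N` has to exceed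
  have hev : ∀ᶠ N : ℕ in Filter.atTop, S.Large N ∧ (∀ r, M₀ ≤ (N : ℝ) * S.wd r * S.tau) ∧
      2 ≤ S.e * N ∧ A / N ≤ δ ∧ A / N ≤ 1 / 2 ∧ 64 * π * A ^ 2 * (2 * Cc + 1) / η ≤ N := by
    have hge : ∀ a : ℝ, ∀ᶠ N : ℕ in Filter.atTop, a ≤ (N : ℝ) := fun a =>
      tendsto_natCast_atTop_atTop.eventually_ge_atTop a
    have h1 : ∀ᶠ N : ℕ in Filter.atTop, S.Large N := by
      refine Filter.eventually_all.2 fun r => (hge (2 * (1 / (S.ell r / 2)) / S.e)).mono
        fun N hN => ?_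
      rw [div_le_iff₀ he] at hN
      linarith
    have h2 : ∀ᶠ N : ℕ in Filter.atTop, ∀ r, M₀ ≤ (N : ℝ) * S.wd r * S.tau := by
      refine Filter.eventually_all.2 fun r => (hge (M₀ / (S.wd r * S.tau))).mono fun N hN => ?_
      rw [div_le_iff₀ (mul_pos (S.wd_pos r) S.tau_pos)] at hN
      linarith
    have h3 : ∀ x : ℝ, 0 < x → ∀ᶠ N : ℕ in Filter.atTop, A / N ≤ x := fun x hx => by
      refine (hge (A / x)).mono fun N hN => ?_
      have hN0 : (0 : ℝ) < N := (div_pos hA0 hx).trans_le hN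
      rw [div_le_iff₀ hx] at hN
      rw [div_le_iff₀ hN0]
      linarith
    exact h1.and (h2.and (((hge (2 / S.e)).mono fun N hN => by
      rw [div_le_iff₀ he] at hN; linarith).and ((h3 δ hδ).and ((h3 _ one_half_pos).and (hge _)))))
  obtain ⟨N₀, hN₀⟩ := Filter.eventually_atTop.1 hev
  refine ⟨N₀, fun N hN => ?_⟩
  obtain ⟨hLg, hM, heN, haδ, ha2, hbig⟩ := hN₀ N hN
  set f := S.freq N with hf
  set B := ⌊S.e * (N : ℝ)⌋₊ with hBdef
  have hN0 : (0 : ℝ) < N := by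
    by_contra h
    nlinarith [mul_nonpos_of_nonneg_of_nonpos he.le (not_lt.1 h)]
  have hBle : (B : ℝ) ≤ S.e * N := Nat.floor_le (by linarith)
  have hBge : S.e * N / 2 ≤ B := by linarith [Nat.lt_floor_add_one (S.e * (N : ℝ))]
  have hBpos : (0 : ℝ) < B := lt_of_lt_of_le (by linarith) hBge
  have hrange : ∀ t, (B : ℝ) ≤ f t ∧ f t ≤ (N : ℝ) - B := fun t => by
    obtain ⟨h1, h2⟩ := S.freq_mem hLg t
    exact ⟨hBle.trans h1, by linarith⟩
  have hω : ∀ x y, |x - y| ≤ A / N → |f x - f y| ≤ (N : ℝ) * ω₀ + 2 * Cc := by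
    intro x y hxy
    have h1 := mul_le_mul_of_nonneg_left (hmod x y (hxy.trans haδ)) hN0.le
    rw [← abs_of_pos hN0, ← abs_mul, abs_of_pos hN0, mul_sub] at h1
    have h2 := abs_le.1 (S.abs_freq_sub N x)
    have h3 := abs_le.1 (S.abs_freq_sub N y)
    rw [abs_le] at h1 ⊢
    constructor <;> linarith [h1.1, h1.2, h2.1, h2.2, h3.1, h3.2]
  have herr : ∀ θ, ‖(∑ k : Fin N, (box (N + 1 - B) B k : ℂ) * coefU f k * ch ((k : ℕ) * θ)) -
      ch (∫ t in (0 : ℝ)..θ, f t)‖ ≤ η / 4 := fun θ => by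
    refine (kernel_flat (S.continuous_freq N) (S.periodic_freq N) (S.integral_period N)
      (Nat.cast_pos.1 hBpos) hrange (by positivity) ha2 hω θ).trans ?_
    have e1 : 4 * π * N * (A / N) ^ 2 * (N * ω₀ + 2 * Cc + 1) =
        4 * π * A ^ 2 * ω₀ + 4 * π * A ^ 2 * (2 * Cc + 1) / N := by
      field_simp
      ring
    have e2 : 4 * π * A ^ 2 * ω₀ = η / 16 := by
      rw [hω₀]
      field_simp
      ring
    have e3 : 4 * π * A ^ 2 * (2 * Cc + 1) / N ≤ η / 16 := by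
      rw [div_le_iff₀ hN0]
      rw [div_le_iff₀ hη] at hbig
      linarith
    have e4 : 1 / ((B : ℝ) * (A / N)) ≤ η / 8 := by
      rw [div_le_iff₀ (by positivity)]
      refine le_trans (le_of_eq ?_) (mul_le_mul_of_nonneg_left
        (mul_le_mul_of_nonneg_right hBge (by positivity : (0 : ℝ) ≤ A / N))
        (by positivity : (0 : ℝ) ≤ η / 8))
      rw [hA]
      field_simp
      ring
    linarith
  set κ := max (Real.sqrt ((1 - 2 * S.L) / (1 - 5 * S.e)) * (B₁ * B₂) +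
    2 * Fintype.card S.D.ι * E) 1 with hκ
  have hκ1 : 1 ≤ κ := le_max_right _ _
  have hκ2 : κ ≤ 1 + η / 2 := max_le hK (by linarith)
  refine ⟨fun k => box (N + 1 - B) B k * (Real.sqrt N * (coefU f k).re) / κ, fun k => ?_, ?_⟩
  · rw [abs_div, abs_of_pos (by linarith : 0 < κ), div_le_one (by linarith), abs_mul,
      abs_of_nonneg (box_nonneg _ _ _)]
    refine (mul_le_mul (box_le_one _ _ _) ((S.coef_bound hLg k hC hC0 hρ hρ0
      (fun r κ => hJ _ (hM r) κ) hB hE).trans (le_max_left _ _)) (abs_nonneg _) zero_le_one).trans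
      (le_of_eq (one_mul _))
  intro θ
  set V := ∑ k : Fin N, (box (N + 1 - B) B k : ℂ) * coefU f k * ch ((k : ℕ) * θ) with hV
  have hpoly : poly (fun k : Fin N => box (N + 1 - B) B k * (Real.sqrt N * (coefU f k).re) / κ) θ =
      ((Real.sqrt N / κ : ℝ) : ℂ) * V := by
    rw [poly, hV, Finset.mul_sum]
    refine Finset.sum_congr rfl fun k _ => ?_
    have hre : ((coefU f k).re : ℂ) = coefU f k := by
      rw [hf, S.coefU_eq, Complex.ofReal_re]
    push_cast
    rw [hre]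
    ring
  rw [hpoly, norm_mul, Complex.norm_real, Real.norm_eq_abs, abs_of_nonneg
    (div_nonneg (Real.sqrt_nonneg _) (by linarith))]
  have hV1 : |‖V‖ - 1| ≤ η / 4 := by
    have h := (abs_norm_sub_norm_le _ _).trans (herr θ)
    rwa [norm_ch] at h
  have hmain : |‖V‖ - κ| ≤ η * κ := by
    rw [abs_le] at hV1 ⊢
    constructor <;> nlinarith
  calc |Real.sqrt N / κ * ‖V‖ - Real.sqrt N| = Real.sqrt N / κ * |‖V‖ - κ| := by
        rw [← abs_of_nonneg (div_nonneg (Real.sqrt_nonneg (N : ℝ)) (by linarith : (0 : ℝ) ≤ κ)),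
          ← abs_mul, abs_of_nonneg (div_nonneg (Real.sqrt_nonneg (N : ℝ))
            (by linarith : (0 : ℝ) ≤ κ)), mul_sub, div_mul_cancel₀ _ (by linarith : κ ≠ 0)]
    _ ≤ Real.sqrt N / κ * (η * κ) :=
        mul_le_mul_of_nonneg_left hmain (div_nonneg (Real.sqrt_nonneg _) (by linarith))
    _ = η * Real.sqrt N := by
        have : κ ≠ 0 := by linarith
        field_simp

end Cfg

end Vale.Agent.P110.Full.Target

namespace Vale.Agent.P110.Full

open Target

/-- Module Target. -/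
theorem target (hP : ProfileStatement) (hL : LinearPhaseStatement) : TargetStatement := by
  intro η hη
  set ξ := min η 1 / 64 with hξ
  have hξ0 : 0 < ξ := div_pos (lt_min hη one_pos) (by norm_num)
  have hξ1 : ξ ≤ 1 / 64 := by rw [hξ]; linarith [min_le_right η 1]
  have hξη : 64 * ξ ≤ η := by rw [hξ]; linarith [min_le_left η 1]
  refine ⟨ξ, hξ0, fun D hD => ?_⟩
  obtain ⟨C, hC0, hC⟩ := hL
  set n : ℝ := (@Fintype.card D.ι D.fintype : ℝ) + 1 with hn
  have hn0 : 0 < n := by positivity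
  have hn1 : 1 ≤ n := by
    have : (0 : ℝ) ≤ @Fintype.card D.ι D.fintype := Nat.cast_nonneg _
    linarith
  have hG : (1 : ℝ) ≤ D.G := Nat.one_le_cast.2 D.G_pos
  have hsG : 1 ≤ Real.sqrt D.G := Real.one_le_sqrt.2 hG
  set L := min (1 / 4) (ξ * (ξ / (n * C)) ^ 2) with hLdef
  have hL0 : 0 < L := lt_min (by norm_num) (by positivity)
  obtain ⟨H, ρ, Λ, ζ, M₀, hHc, hH0, hH1, hHm, hρ, hρ0, hζ, hJ⟩ :=
    hP (ξ / (n * Real.sqrt D.G)) (by positivity)
  obtain ⟨z₀, rfl⟩ := exists_eq_ch hζ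
  let S : Cfg := ⟨D, ξ, L, H, z₀, hξ0, by linarith, hL0, min_le_left _ _, hHc, hH0, hH1, hHm⟩
  have hε' : ξ / (n * Real.sqrt D.G) ≤ ξ :=
    div_le_self hξ0.le (one_le_mul_of_one_le_of_one_le hn1 hsG)
  refine Cfg.exists_flat S hη hC0.le hC (B₁ := 1 + ξ) (B₂ := 1 + ξ) (E := ξ / n + 4 * (ξ / n))
    (fun κ => (hρ κ).trans (by linarith)) hρ0 hJ hD (fun r => ?_) ?_
  · have hw : Real.sqrt (S.wd r / S.tau) ≤ Real.sqrt D.G := by
      refine Real.sqrt_le_sqrt ?_
      rw [div_le_iff₀ S.tau_pos, show (D.G : ℝ) * S.tau = 1 - 5 * ξ from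
        mul_div_cancel₀ _ (by linarith)]
      have := S.len_le r
      have := S.wd_eq r
      have := S.ell_pos r
      linarith
    have hl : C * Real.sqrt (S.ell r / S.e) ≤ ξ / n := by
      have h1 : S.ell r / S.e ≤ (ξ / (n * C)) ^ 2 := by
        rw [div_le_iff₀ S.e_pos]
        have h2 : S.ell r ≤ L :=
          (mul_le_mul_of_nonneg_left (S.len_le r) hL0.le).trans (by linarith)
        exact (h2.trans (min_le_right _ _)).trans (le_of_eq (mul_comm _ _))
      refine (mul_le_mul_of_nonneg_left ((Real.sqrt_le_sqrt h1).trans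
        (le_of_eq (Real.sqrt_sq (by positivity)))) hC0.le).trans (le_of_eq ?_)
      field_simp
    have h3 : Real.sqrt (S.wd r / S.tau) * (ξ / (n * Real.sqrt D.G)) ≤ ξ / n := by
      refine (mul_le_mul_of_nonneg_right hw (by positivity)).trans (le_of_eq ?_)
      field_simp
    linarith
  · have h1 : Real.sqrt ((1 - 2 * S.L) / (1 - 5 * S.e)) ≤ 1 + 10 * ξ := by
      rw [Real.sqrt_le_left (by linarith)]
      rw [div_le_iff₀ (by linarith [S.e_small] : (0 : ℝ) < 1 - 5 * S.e)]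
      have e1 : S.e = ξ := rfl
      have e2 : 0 < S.L := hL0
      rw [e1]
      have e3 := mul_nonneg hξ0.le (by linarith : (0 : ℝ) ≤ 15 - 100 * ξ)
      have e4 := mul_le_mul_of_nonneg_right (by nlinarith : 1 + 20 * ξ ≤ (1 + 10 * ξ) ^ 2)
        (by linarith : (0 : ℝ) ≤ 1 - 5 * ξ)
      linarith
    have h3 := mul_le_mul_of_nonneg_right h1 (by positivity : (0 : ℝ) ≤ (1 + ξ) * (1 + ξ))
    have h5 : ξ ^ 2 ≤ ξ / 64 := by nlinarith
    have h6 : ξ ^ 3 ≤ ξ / 64 := by nlinarith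
    suffices key : ∀ m : ℝ, m ≤ n → Real.sqrt ((1 - 2 * S.L) / (1 - 5 * S.e)) *
        ((1 + ξ) * (1 + ξ)) + 2 * m * (ξ / n + 4 * (ξ / n)) ≤ 1 + η / 2 from
      key _ (le_add_of_nonneg_right zero_le_one)
    intro m hm
    have h2 : m * (ξ / n) ≤ ξ := by
      rw [← mul_div_assoc, div_le_iff₀ hn0, mul_comm ξ]
      exact mul_le_mul_of_nonneg_right hm hξ0.le
    linarith

end Vale.Agent.P110.Full
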