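import Vale.Agent.P110.Full.Target.Freq

/-!
Target, coefficients: on every run the four connector pieces are oscillatory integrals with an
affine frequency, and the inner part is the profile integral of the run's time slot. So a Fourier
coefficient of the target is, up to small errors, the slot sum of the tiling data.
-/

noncomputable section

namespace Vale.Agent.P110.Full.Target

open Finset MeasureTheory intervalIntegral Real

theorem ch_re (x : ℝ) : (ch x).re = Real.cos (2 * π * x) := by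
  rw [ch, Complex.exp_ofReal_mul_I_re]

theorem convex_mem {lo hi v0 v1 t : ℝ} (h0 : v0 ∈ Set.Icc lo hi) (h1 : v1 ∈ Set.Icc lo hi)
    (ht : t ∈ Set.Icc (0 : ℝ) 1) : v0 + t * (v1 - v0) ∈ Set.Icc lo hi :=
  ⟨by nlinarith [h0.1, h1.1, ht.1, ht.2], by nlinarith [h0.2, h1.2, ht.1, ht.2]⟩

/-- A phase with affine derivative on an interval gives a short oscillatory integral. -/
theorem norm_affine_le {C : ℝ}
    (hC : ∀ σ b p q : ℝ, p ≤ q → σ ≠ 0 →
      ‖∫ x in p..q, ch (σ * x ^ 2 / 2 + b * x)‖ ≤ C / Real.sqrt |σ|)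
    {g : ℝ → ℝ} (hg : Continuous g) {p q σ b : ℝ} (hpq : p ≤ q) (hσ : σ ≠ 0)
    (h : ∀ u ∈ Set.Icc p q, g u = σ * u + b) :
    ‖∫ u in p..q, ch (∫ t in (0 : ℝ)..u, g t)‖ ≤ C / Real.sqrt |σ| := by
  have e : Set.EqOn (fun u => ch (∫ t in (0 : ℝ)..u, g t))
      (fun u => ch ((∫ t in (0 : ℝ)..p, g t) - σ * p ^ 2 / 2 - b * p) *
        ch (σ * u ^ 2 / 2 + b * u)) (Set.uIcc p q) := by
    intro u hu
    rw [Set.uIcc_of_le hpq] at hu
    have e1 : ∫ t in p..u, g t = ∫ t in p..u, (σ * t + b) :=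
      integral_congr fun t ht => by
        rw [Set.uIcc_of_le hu.1] at ht
        exact h t ⟨ht.1, ht.2.trans hu.2⟩
    simp only
    rw [← ch_add, ← integral_add_adjacent_intervals (hg.intervalIntegrable 0 p)
      (hg.intervalIntegrable p u), e1, intervalIntegral.integral_add
      ((by fun_prop : Continuous fun t : ℝ => σ * t).intervalIntegrable _ _) intervalIntegrable_const,
      intervalIntegral.integral_const_mul, integral_id, intervalIntegral.integral_const,
      smul_eq_mul]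
    congr 1
    ring
  rw [integral_congr e, intervalIntegral.integral_const_mul, norm_mul, norm_ch, one_mul]
  exact hC σ b p q hpq hσ

namespace Cfg

variable (S : Cfg)

/-- The frequency is large against the corrections. -/
def Large (N : ℝ) : Prop := ∀ r, 1 / (S.ell r / 2) ≤ S.e * N / 2

theorem large_pos {N : ℝ} (hN : S.Large N) (r : S.D.ι) : 0 < N := by
  have h := hN r
  have h1 : 0 < 1 / (S.ell r / 2) := by have := S.ell_pos r; positivity
  by_contra hle
  have := mul_nonpos_of_nonneg_of_nonpos S.e_pos.le (not_lt.1 hle)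
  linarith

theorem dl_mem {N : ℝ} (r : S.D.ι) : S.dl N r ∈ Set.Icc 0 (1 / (S.ell r / 2)) := by
  have := S.ell_pos r
  exact ⟨div_nonneg (Int.fract_nonneg _) (by linarith),
    div_le_div_of_nonneg_right (Int.fract_lt_one _).le (by linarith)⟩

theorem dr_mem {N : ℝ} (r : S.D.ι) : S.dr N r ∈ Set.Icc 0 (1 / (S.ell r / 2)) := by
  have := S.ell_pos r
  exact ⟨div_nonneg (Int.fract_nonneg _) (by linarith),
    div_le_div_of_nonneg_right (Int.fract_lt_one _).le (by linarith)⟩

theorem freq_piece1 (N : ℝ) (r : S.D.ι) {u : ℝ} (hu : u ∈ Set.Icc 0 (S.ell r / 2)) :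
    S.freq N ((S.D.a r : ℝ) / S.D.P + u) =
      N * (1 - S.e) + u / (S.ell r / 2) * (N * (1 - 2 * S.e) + S.dl N r - N * (1 - S.e)) := by
  have h1 := S.ell_pos r
  have h2 := S.wd_pos r
  have h3 := S.wd_eq r
  obtain ⟨hu1, hu2⟩ := hu
  rw [S.freq_eq N r hu1 (by linarith), bump, shape, corr,
    clamp_of_mem ⟨div_nonneg hu1 (by linarith), (div_le_one (by linarith)).2 hu2⟩,
    clamp_of_le (div_nonpos_of_nonpos_of_nonneg (by linarith) (by linarith)),
    clamp_of_le (div_nonpos_of_nonpos_of_nonneg (by linarith) h2.le),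
    clamp_of_le (div_nonpos_of_nonpos_of_nonneg (by linarith) (by linarith)),
    clamp_of_le (div_nonpos_of_nonpos_of_nonneg (by linarith) (by linarith)), S.H_zero,
    tent_left (c := S.ell r / 2) (by linarith) (by linarith) hu2,
    tent_zero (c := S.len r - S.ell r / 2) (by linarith)
      (by rw [abs_of_nonpos (by linarith)]; linarith), sub_self, sub_zero]
  ring

theorem freq_piece2 (N : ℝ) (r : S.D.ι) {u : ℝ} (hu : u ∈ Set.Icc (S.ell r / 2) (S.ell r)) :
    S.freq N ((S.D.a r : ℝ) / S.D.P + u) = N * (1 - 2 * S.e) + S.dl N r +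
      (u - S.ell r / 2) / (S.ell r / 2) *
        (N * S.t0 (S.D.time r) - (N * (1 - 2 * S.e) + S.dl N r)) := by
  have h1 := S.ell_pos r
  have h2 := S.wd_pos r
  have h3 := S.wd_eq r
  obtain ⟨hu1, hu2⟩ := hu
  rw [S.freq_eq N r (by linarith) (by linarith), bump, shape, corr,
    clamp_of_ge ((one_le_div (by linarith)).2 hu1),
    clamp_of_mem ⟨div_nonneg (by linarith) (by linarith),
      (div_le_one (by linarith)).2 (by linarith)⟩,
    clamp_of_le (div_nonpos_of_nonpos_of_nonneg (by linarith) h2.le),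
    clamp_of_le (div_nonpos_of_nonpos_of_nonneg (by linarith) (by linarith)),
    clamp_of_le (div_nonpos_of_nonpos_of_nonneg (by linarith) (by linarith)), S.H_zero,
    tent_right (c := S.ell r / 2) (by linarith) hu1 (by linarith),
    tent_zero (c := S.len r - S.ell r / 2) (by linarith)
      (by rw [abs_of_nonpos (by linarith)]; linarith)]
  field_simp
  ring

theorem freq_inner (N : ℝ) (r : S.D.ι) {u : ℝ}
    (hu : u ∈ Set.Icc (S.ell r) (S.len r - S.ell r)) :
    S.freq N ((S.D.a r : ℝ) / S.D.P + u) =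
      N * (S.t0 (S.D.time r) + S.tau * S.H ((u - S.ell r) / S.wd r)) := by
  have h1 := S.ell_pos r
  have h2 := S.wd_pos r
  have h3 := S.wd_eq r
  obtain ⟨hu1, hu2⟩ := hu
  rw [S.freq_eq N r (by linarith) (by linarith), bump, shape, corr,
    clamp_of_ge ((one_le_div (by linarith)).2 (by linarith)),
    clamp_of_ge ((one_le_div (by linarith)).2 (by linarith)),
    clamp_of_mem ⟨div_nonneg (by linarith) h2.le, (div_le_one h2).2 (by linarith)⟩,
    clamp_of_le (div_nonpos_of_nonpos_of_nonneg (by linarith) (by linarith)),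
    clamp_of_le (div_nonpos_of_nonpos_of_nonneg (by linarith) (by linarith)),
    tent_zero (c := S.ell r / 2) (by linarith) (by rw [abs_of_nonneg (by linarith)]; linarith),
    tent_zero (c := S.len r - S.ell r / 2) (by linarith)
      (by rw [abs_of_nonpos (by linarith)]; linarith)]
  ring

theorem freq_piece3 (N : ℝ) (r : S.D.ι) {u : ℝ}
    (hu : u ∈ Set.Icc (S.len r - S.ell r) (S.len r - S.ell r / 2)) :
    S.freq N ((S.D.a r : ℝ) / S.D.P + u) = N * (S.t0 (S.D.time r) + S.tau) +
      (u - (S.len r - S.ell r)) / (S.ell r / 2) *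
        (N * (1 - 2 * S.e) + S.dr N r - N * (S.t0 (S.D.time r) + S.tau)) := by
  have h1 := S.ell_pos r
  have h2 := S.wd_pos r
  have h3 := S.wd_eq r
  obtain ⟨hu1, hu2⟩ := hu
  rw [S.freq_eq N r (by linarith) (by linarith), bump, shape, corr,
    clamp_of_ge ((one_le_div (by linarith)).2 (by linarith)),
    clamp_of_ge ((one_le_div (by linarith)).2 (by linarith)),
    clamp_of_ge ((one_le_div h2).2 (by linarith)),
    clamp_of_mem ⟨div_nonneg (by linarith) (by linarith),
      (div_le_one (by linarith)).2 (by linarith)⟩,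
    clamp_of_le (div_nonpos_of_nonpos_of_nonneg (by linarith) (by linarith)), S.H_one,
    tent_zero (c := S.ell r / 2) (by linarith) (by rw [abs_of_nonneg (by linarith)]; linarith),
    tent_left (c := S.len r - S.ell r / 2) (by linarith) (by linarith) hu2]
  ring

theorem freq_piece4 (N : ℝ) (r : S.D.ι) {u : ℝ}
    (hu : u ∈ Set.Icc (S.len r - S.ell r / 2) (S.len r)) :
    S.freq N ((S.D.a r : ℝ) / S.D.P + u) = N * (1 - 2 * S.e) + S.dr N r +
      (u - (S.len r - S.ell r / 2)) / (S.ell r / 2) *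
        (N * (1 - S.e) - (N * (1 - 2 * S.e) + S.dr N r)) := by
  have h1 := S.ell_pos r
  have h2 := S.wd_pos r
  have h3 := S.wd_eq r
  obtain ⟨hu1, hu2⟩ := hu
  rw [S.freq_eq N r (by linarith) hu2, bump, shape, corr,
    clamp_of_ge ((one_le_div (by linarith)).2 (by linarith)),
    clamp_of_ge ((one_le_div (by linarith)).2 (by linarith)),
    clamp_of_ge ((one_le_div h2).2 (by linarith)),
    clamp_of_ge ((one_le_div (by linarith)).2 (by linarith)),
    clamp_of_mem ⟨div_nonneg (by linarith) (by linarith),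
      (div_le_one (by linarith)).2 (by linarith)⟩, S.H_one,
    tent_zero (c := S.ell r / 2) (by linarith) (by rw [abs_of_nonneg (by linarith)]; linarith),
    tent_right (c := S.len r - S.ell r / 2) (by linarith) hu1 (by linarith)]
  field_simp
  ring

/-- The frequency stays away from `0` and from `N`. -/
theorem freq_mem {N : ℝ} (hN : S.Large N) (θ : ℝ) :
    S.freq N θ ∈ Set.Icc (S.e * N) ((1 - S.e) * N) := by
  obtain ⟨r, u, n, hu0, hu1, hθ⟩ := S.exists_run θ
  have hf : S.freq N θ = S.freq N ((S.D.a r : ℝ) / S.D.P + u) := by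
    rcases hθ with rfl | rfl
    · rw [S.freq_add_int]
    · rw [S.freq_add_int, S.freq_neg]
  rw [hf]
  have h1 := S.ell_pos r
  have h3 := S.wd_eq r
  have h2 := S.wd_pos r
  have hNp := S.large_pos hN r
  have hd := hN r
  have hl := S.dl_mem (N := N) r
  have hr := S.dr_mem (N := N) r
  obtain ⟨ht1, ht2⟩ := S.t0_bounds (S.D.time r)
  have hτ := S.tau_pos
  have he := S.e_small
  have he' := S.e_pos
  have p0 : N * (1 - S.e) ∈ Set.Icc (S.e * N) ((1 - S.e) * N) := ⟨by nlinarith, by linarith⟩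
  have pl : N * (1 - 2 * S.e) + S.dl N r ∈ Set.Icc (S.e * N) ((1 - S.e) * N) :=
    ⟨by nlinarith [hl.1], by nlinarith [hl.2]⟩
  have pr : N * (1 - 2 * S.e) + S.dr N r ∈ Set.Icc (S.e * N) ((1 - S.e) * N) :=
    ⟨by nlinarith [hr.1], by nlinarith [hr.2]⟩
  have pt : N * S.t0 (S.D.time r) ∈ Set.Icc (S.e * N) ((1 - S.e) * N) :=
    ⟨by nlinarith, by nlinarith⟩
  have ps : N * (S.t0 (S.D.time r) + S.tau) ∈ Set.Icc (S.e * N) ((1 - S.e) * N) :=
    ⟨by nlinarith, by nlinarith⟩
  rcases le_total u (S.ell r / 2) with hc | hc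
  · rw [S.freq_piece1 N r ⟨hu0, hc⟩]
    exact convex_mem p0 pl ⟨div_nonneg hu0 (by linarith), (div_le_one (by linarith)).2 hc⟩
  rcases le_total u (S.ell r) with hc' | hc'
  · rw [S.freq_piece2 N r ⟨hc, hc'⟩]
    exact convex_mem pl pt ⟨div_nonneg (by linarith) (by linarith),
      (div_le_one (by linarith)).2 (by linarith)⟩
  rcases le_total u (S.len r - S.ell r) with hc'' | hc''
  · rw [S.freq_inner N r ⟨hc', hc''⟩]
    have hH := S.H_mem ((u - S.ell r) / S.wd r)
      ⟨div_nonneg (by linarith) h2.le, (div_le_one h2).2 (by linarith)⟩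
    have := convex_mem pt ps hH
    rwa [show N * S.t0 (S.D.time r) + S.H ((u - S.ell r) / S.wd r) *
      (N * (S.t0 (S.D.time r) + S.tau) - N * S.t0 (S.D.time r)) =
      N * (S.t0 (S.D.time r) + S.tau * S.H ((u - S.ell r) / S.wd r)) by ring] at this
  rcases le_total u (S.len r - S.ell r / 2) with hc3 | hc3
  · rw [S.freq_piece3 N r ⟨hc'', hc3⟩]
    exact convex_mem ps pr ⟨div_nonneg (by linarith) (by linarith),
      (div_le_one (by linarith)).2 (by linarith)⟩
  · rw [S.freq_piece4 N r ⟨hc3, hu1⟩]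
    exact convex_mem pr p0 ⟨div_nonneg (by linarith) (by linarith),
      (div_le_one (by linarith)).2 (by linarith)⟩

/-! ### One run -/

/-- The part of a Fourier coefficient coming from a run. -/
def runInt (N : ℝ) (k : ℝ) (r : S.D.ι) : ℂ :=
  ∫ θ in ((S.D.a r : ℝ) / S.D.P)..(((S.D.a r : ℝ) + S.D.w r) / S.D.P),
    S.U N θ * ch (-(k * θ))

/-- The position of `k` inside a time slot. -/
def kappa (N k : ℝ) (g : Fin S.D.G) : ℝ := (k / N - S.t0 g) / S.tau

/-- The free phase of a time slot. -/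
def freePhase (Λ : ℝ → ℝ) (N k : ℝ) (g : Fin S.D.G) : ℝ :=
  k * S.L / S.D.P - N * S.tau * (1 - 2 * S.L) * Λ (S.kappa N k g) / S.D.P

theorem runInt_eq (N k : ℝ) (r : S.D.ι) :
    S.runInt N k r = ch (-(k * ((S.D.a r : ℝ) / S.D.P))) * ∫ u in (0 : ℝ)..S.len r,
      ch (∫ t in (0 : ℝ)..u, (S.freq N ((S.D.a r : ℝ) / S.D.P + t) - k)) := by
  rw [runInt, add_div, show (S.D.w r : ℝ) / S.D.P = S.len r from rfl,
    ← intervalIntegral.integral_const_mul]
  have hshift := intervalIntegral.integral_comp_add_left (fun θ => S.U N θ * ch (-(k * θ)))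
    ((S.D.a r : ℝ) / S.D.P) (a := 0) (b := S.len r)
  rw [add_zero] at hshift
  rw [← hshift]
  refine integral_congr fun u _ => ?_
  have hU : S.U N ((S.D.a r : ℝ) / S.D.P + u) =
      ch (∫ t in (0 : ℝ)..u, S.freq N ((S.D.a r : ℝ) / S.D.P + t)) := by
    have hstart := S.U_start N r
    rw [U, phase, ← integral_add_adjacent_intervals (b := (S.D.a r : ℝ) / S.D.P)
      ((S.continuous_freq N).intervalIntegrable _ _) ((S.continuous_freq N).intervalIntegrable _ _),
      ch_add]
    rw [U, phase] at hstart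
    rw [hstart, one_mul, intervalIntegral.integral_comp_add_left (fun t => S.freq N t), add_zero]
  have hfc : Continuous fun t => S.freq N ((S.D.a r : ℝ) / S.D.P + t) :=
    (S.continuous_freq N).comp (continuous_const.add continuous_id')
  rw [hU, ← ch_add, ← ch_add, intervalIntegral.integral_sub (hfc.intervalIntegrable _ _)
    intervalIntegrable_const, intervalIntegral.integral_const, smul_eq_mul]
  congr 1
  ring

/-- A run contributes the amplitude of its slot, up to the errors of the profile and of the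
connectors. -/
theorem runInt_bound {N k : ℝ} (hN : S.Large N) (r : S.D.ι) {C : ℝ}
    (hC : ∀ σ b p q : ℝ, p ≤ q → σ ≠ 0 →
      ‖∫ x in p..q, ch (σ * x ^ 2 / 2 + b * x)‖ ≤ C / Real.sqrt |σ|) (hC0 : 0 ≤ C)
    {ρ Λ : ℝ → ℝ} {ε : ℝ}
    (hJ : ‖(Real.sqrt (N * S.wd r * S.tau) : ℂ) * (∫ x in (0 : ℝ)..1,
        ch (N * S.wd r * S.tau * ((∫ y in (0 : ℝ)..x, S.H y) - S.kappa N k (S.D.time r) * x))) -
        (ρ (S.kappa N k (S.D.time r)) : ℂ) * ch S.z₀ *
          ch (N * S.wd r * S.tau * Λ (S.kappa N k (S.D.time r)))‖ ≤ ε) :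
    ‖(Real.sqrt N : ℂ) * S.runInt N k r -
        ((Real.sqrt (S.wd r / S.tau) * ρ (S.kappa N k (S.D.time r)) : ℝ) : ℂ) *
          ch (S.D.β r - S.D.a r * k / S.D.P - S.D.w r * S.freePhase Λ N k (S.D.time r))‖ ≤
      Real.sqrt (S.wd r / S.tau) * ε + 4 * (C * Real.sqrt (S.ell r / S.e)) := by
  have hNp := S.large_pos hN r
  have h1 := S.ell_pos r
  have h2 := S.wd_pos r
  have h3 := S.wd_eq r
  have hτ := S.tau_pos
  have he := S.e_pos
  set c : ℝ := (S.D.a r : ℝ) / S.D.P with hc
  set g : ℝ → ℝ := fun t => S.freq N (c + t) - k with hg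
  have hgc : Continuous g :=
    ((S.continuous_freq N).comp (continuous_const.add continuous_id')).sub continuous_const
  set F : ℝ → ℂ := fun u => ch (∫ t in (0 : ℝ)..u, g t) with hF
  have hFc : Continuous F :=
    continuous_ch.comp (intervalIntegral.continuous_primitive hgc.intervalIntegrable 0)
  have hi : ∀ p q : ℝ, IntervalIntegrable F volume p q := fun p q => hFc.intervalIntegrable _ _
  have hsplit : (∫ u in (0 : ℝ)..S.len r, F u) =
      (∫ u in (0 : ℝ)..(S.ell r / 2), F u) + (∫ u in (S.ell r / 2)..S.ell r, F u) +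
        (∫ u in S.ell r..(S.len r - S.ell r), F u) +
        (∫ u in (S.len r - S.ell r)..(S.len r - S.ell r / 2), F u) +
        ∫ u in (S.len r - S.ell r / 2)..S.len r, F u := by
    rw [integral_add_adjacent_intervals (hi _ _) (hi _ _),
      integral_add_adjacent_intervals (hi _ _) (hi _ _),
      integral_add_adjacent_intervals (hi _ _) (hi _ _),
      integral_add_adjacent_intervals (hi _ _) (hi _ _)]
  -- the connectors
  have hpiece : ∀ p q v0 v1 : ℝ, q = p + S.ell r / 2 → S.e * N / 2 ≤ |v1 - v0| →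
      (∀ u ∈ Set.Icc p q, S.freq N (c + u) = v0 + (u - p) / (S.ell r / 2) * (v1 - v0)) →
      Real.sqrt N * ‖∫ u in p..q, F u‖ ≤ C * Real.sqrt (S.ell r / S.e) := by
    intro p q v0 v1 hq hv hfr
    have hσ' : S.e * N / S.ell r ≤ |(v1 - v0) / (S.ell r / 2)| := by
      rw [abs_div, abs_of_pos (by linarith : 0 < S.ell r / 2), le_div_iff₀ (by linarith)]
      refine le_trans (le_of_eq ?_) hv
      field_simp
    have hσpos : 0 < S.e * N / S.ell r := by positivity
    have hσ0 : (v1 - v0) / (S.ell r / 2) ≠ 0 := abs_pos.1 (hσpos.trans_le hσ')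
    have h := norm_affine_le hC hgc (p := p) (q := q)
      (b := v0 - k - p * ((v1 - v0) / (S.ell r / 2))) (by linarith) hσ0 fun u hu => by
        simp only [hg]
        rw [hfr u hu]
        ring
    refine (mul_le_mul_of_nonneg_left h (Real.sqrt_nonneg N)).trans ?_
    refine (mul_le_mul_of_nonneg_left (div_le_div_of_nonneg_left hC0 (Real.sqrt_pos.2 hσpos)
      (Real.sqrt_le_sqrt hσ')) (Real.sqrt_nonneg N)).trans (le_of_eq ?_)
    rw [Real.sqrt_div (by positivity), Real.sqrt_mul he.le, Real.sqrt_div h1.le]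
    have := Real.sqrt_pos.2 hNp
    have := Real.sqrt_pos.2 he
    have := Real.sqrt_pos.2 h1
    field_simp
  have hl := S.dl_mem (N := N) r
  have hr := S.dr_mem (N := N) r
  have hd := hN r
  obtain ⟨ht1, ht2⟩ := S.t0_bounds (S.D.time r)
  have hpe : 0 < S.e * N := by positivity
  have q1 := hpiece 0 (S.ell r / 2) (N * (1 - S.e)) (N * (1 - 2 * S.e) + S.dl N r) (zero_add _).symm
    (by rw [abs_of_nonpos (by linarith [hl.2])]; linarith [hl.2])
    fun u hu => by rw [S.freq_piece1 N r hu, sub_zero]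
  have q2 := hpiece (S.ell r / 2) (S.ell r) (N * (1 - 2 * S.e) + S.dl N r)
    (N * S.t0 (S.D.time r)) (add_halves _).symm
    (by rw [abs_of_nonpos (by nlinarith [hl.1])]; nlinarith [hl.1])
    fun u hu => S.freq_piece2 N r hu
  have q3 := hpiece (S.len r - S.ell r) (S.len r - S.ell r / 2)
    (N * (S.t0 (S.D.time r) + S.tau)) (N * (1 - 2 * S.e) + S.dr N r) (by ring)
    (by rw [abs_of_nonneg (by nlinarith [hr.1])]; nlinarith [hr.1])
    fun u hu => S.freq_piece3 N r hu
  have q4 := hpiece (S.len r - S.ell r / 2) (S.len r) (N * (1 - 2 * S.e) + S.dr N r)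
    (N * (1 - S.e)) (by ring)
    (by rw [abs_of_nonneg (by linarith [hr.2])]; linarith [hr.2])
    fun u hu => S.freq_piece4 N r hu
  -- the inner part
  set κ := S.kappa N k (S.D.time r) with hκ
  set M := N * S.wd r * S.tau with hM
  have hin : (∫ u in S.ell r..(S.len r - S.ell r), F u) =
      (S.wd r : ℂ) * (ch (S.phi r - k * S.ell r) *
        ∫ x in (0 : ℝ)..1, ch (M * ((∫ y in (0 : ℝ)..x, S.H y) - κ * x))) := by
    have e := intervalIntegral.integral_comp_mul_add F (c := S.wd r) h2.ne' (S.ell r)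
      (a := 0) (b := 1)
    rw [mul_zero, zero_add, mul_one, show S.wd r + S.ell r = S.len r - S.ell r by linarith,
      Complex.real_smul] at e
    have e' : (∫ u in S.ell r..(S.len r - S.ell r), F u) =
        (S.wd r : ℂ) * ∫ x in (0 : ℝ)..1, F (S.wd r * x + S.ell r) := by
      rw [e, ← mul_assoc, ← Complex.ofReal_mul, mul_inv_cancel₀ h2.ne', Complex.ofReal_one,
        one_mul]
    rw [e', ← intervalIntegral.integral_const_mul (ch _)]
    congr 1
    refine integral_congr fun x hx => ?_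
    rw [Set.uIcc_of_le zero_le_one] at hx
    obtain ⟨m, hm⟩ := S.integral_left N r
    have hleft : ∫ t in (0 : ℝ)..S.ell r, g t = S.phi r - k * S.ell r + m := by
      simp only [hg]
      have hfc : Continuous fun t => S.freq N (c + t) :=
        (S.continuous_freq N).comp (continuous_const.add continuous_id')
      rw [intervalIntegral.integral_sub (hfc.intervalIntegrable _ _)
        intervalIntegrable_const, intervalIntegral.integral_const, smul_eq_mul,
        intervalIntegral.integral_comp_add_left (fun t => S.freq N t), add_zero, hm]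
      ring
    have hxl : S.ell r ≤ S.wd r * x + S.ell r := le_add_of_nonneg_left (mul_nonneg h2.le hx.1)
    have hrest : ∫ t in S.ell r..(S.wd r * x + S.ell r), g t =
        M * ((∫ y in (0 : ℝ)..x, S.H y) - κ * x) := by
      have e2 := intervalIntegral.integral_comp_mul_add g (c := S.wd r) h2.ne' (S.ell r)
        (a := 0) (b := x)
      rw [mul_zero, zero_add, smul_eq_mul, ← mul_right_inj' h2.ne', ← mul_assoc,
        mul_inv_cancel₀ h2.ne', one_mul] at e2
      rw [← e2]
      have e3 : Set.EqOn (fun y => g (S.wd r * y + S.ell r))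
          (fun y => N * S.tau * (S.H y - κ)) (Set.uIcc 0 x) := by
        intro y hy
        rw [Set.uIcc_of_le hx.1] at hy
        simp only [hg]
        rw [S.freq_inner N r ⟨le_add_of_nonneg_left (mul_nonneg h2.le hy.1), by
          nlinarith [hy.2, hx.2]⟩, add_sub_cancel_right, mul_div_cancel_left₀ _ h2.ne', hκ, kappa]
        field_simp
        ring
      rw [integral_congr e3, intervalIntegral.integral_const_mul, intervalIntegral.integral_sub
        (S.H_cont.intervalIntegrable _ _) intervalIntegrable_const,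
        intervalIntegral.integral_const, smul_eq_mul, hM]
      ring
    simp only [hF]
    rw [← integral_add_adjacent_intervals (hgc.intervalIntegrable 0 (S.ell r))
      (hgc.intervalIntegrable _ _), hleft, hrest, ← ch_add]
    rw [show S.phi r - k * S.ell r + (m : ℝ) + M * ((∫ y in (0 : ℝ)..x, S.H y) - κ * x) =
      S.phi r - k * S.ell r + M * ((∫ y in (0 : ℝ)..x, S.H y) - κ * x) + (m : ℤ) by ring,
      ch_add_int]
  -- the main term
  have hsq : Real.sqrt N * S.wd r = Real.sqrt (S.wd r / S.tau) * Real.sqrt M := by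
    rw [← Real.sqrt_mul (by positivity), hM,
      show S.wd r / S.tau * (N * S.wd r * S.tau) = N * S.wd r ^ 2 by field_simp,
      Real.sqrt_mul hNp.le, Real.sqrt_sq h2.le]
  have hph : ch (-(k * c)) * ch (S.phi r - k * S.ell r) * (ch S.z₀ * ch (M * Λ κ)) =
      ch (S.D.β r - S.D.a r * k / S.D.P - S.D.w r * S.freePhase Λ N k (S.D.time r)) := by
    rw [← ch_add, ← ch_add, ← ch_add]
    congr 1
    rw [phi, freePhase, hM, hc, ell, wd, len, ← hκ]
    ring
  set W : ℂ := ch (-(k * c)) * ch (S.phi r - k * S.ell r) with hW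
  set J : ℂ := ∫ x in (0 : ℝ)..1, ch (M * ((∫ y in (0 : ℝ)..x, S.H y) - κ * x)) with hJdef
  have hrun : (Real.sqrt N : ℂ) * S.runInt N k r -
      ((Real.sqrt (S.wd r / S.tau) * ρ κ : ℝ) : ℂ) *
        ch (S.D.β r - S.D.a r * k / S.D.P - S.D.w r * S.freePhase Λ N k (S.D.time r)) =
      (Real.sqrt (S.wd r / S.tau) : ℂ) * W *
          ((Real.sqrt M : ℂ) * J - (ρ κ : ℂ) * ch S.z₀ * ch (M * Λ κ)) +
        (Real.sqrt N : ℂ) * ch (-(k * c)) *
          ((∫ u in (0 : ℝ)..(S.ell r / 2), F u) + (∫ u in (S.ell r / 2)..S.ell r, F u) +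
            (∫ u in (S.len r - S.ell r)..(S.len r - S.ell r / 2), F u) +
            ∫ u in (S.len r - S.ell r / 2)..S.len r, F u) := by
    have hre : S.runInt N k r = ch (-(k * c)) * ∫ u in (0 : ℝ)..S.len r, F u := by
      rw [S.runInt_eq]
    rw [hre, hsplit, hin, ← hph, hW]
    have := congrArg (fun z : ℝ => (z : ℂ)) hsq
    push_cast at this ⊢
    linear_combination ch (-(k * c)) * ch (S.phi r - k * S.ell r) * J * this
  rw [hrun]
  refine (norm_add_le _ _).trans (add_le_add ?_ ?_)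
  · rw [norm_mul, norm_mul, hW, norm_mul, norm_ch, norm_ch, Complex.norm_real, Real.norm_eq_abs,
      abs_of_nonneg (Real.sqrt_nonneg _), one_mul, mul_one]
    exact mul_le_mul_of_nonneg_left hJ (Real.sqrt_nonneg _)
  · rw [norm_mul, norm_mul, norm_ch, Complex.norm_real, Real.norm_eq_abs,
      abs_of_nonneg (Real.sqrt_nonneg _), mul_one]
    refine (mul_le_mul_of_nonneg_left ((norm_add_le _ _).trans
      (add_le_add_left norm_add₃_le _)) (Real.sqrt_nonneg _)).trans ?_
    linarith

/-! ### The decomposition of a coefficient -/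

/-- The circle is the union of the runs and their mirror images. -/
theorem integral_circle {F : ℝ → ℂ} (hF : Continuous F) (hper : Function.Periodic F 1) :
    ∫ θ in (0 : ℝ)..1, F θ = ∑ r, ((∫ θ in ((S.D.a r : ℝ) / S.D.P)..
        (((S.D.a r : ℝ) + S.D.w r) / S.D.P), F θ) +
      ∫ θ in ((S.D.a r : ℝ) / S.D.P)..(((S.D.a r : ℝ) + S.D.w r) / S.D.P), F (-θ)) := by
  have hP := S.P_pos'
  set T : ℤ → ℂ := fun z => ∫ θ in ((z : ℝ) / S.D.P)..(((z : ℝ) + 1) / S.D.P), F θ with hT
  have hTper : ∀ z n : ℤ, T (z + S.D.P * n) = T z := by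
    intro z n
    simp only [hT]
    have hn : Function.Periodic F (n : ℝ) := by simpa using hper.int_mul n
    have := intervalIntegral.integral_comp_add_right F (n : ℝ) (a := (z : ℝ) / S.D.P)
      (b := ((z : ℝ) + 1) / S.D.P)
    simp only [show ∀ x, F (x + n) = F x from hn] at this
    rw [this]
    push_cast
    congr 1 <;> field_simp <;> ring
  have hTcast : ∀ z : ℤ, T ((z : ZMod S.D.P).val) = T z := fun z => by
    have hv : (((z : ZMod S.D.P).val : ℕ) : ℤ) = z + S.D.P * -(z / (S.D.P : ℤ)) := by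
      rw [ZMod.val_intCast]
      linarith [Int.emod_add_mul_ediv z (S.D.P : ℤ)]
    rw [hv, hTper]
  have h1 : ∫ θ in (0 : ℝ)..1, F θ = ∑ y : ZMod S.D.P, T (y.val) := by
    have := intervalIntegral.sum_integral_adjacent_intervals (μ := volume) (f := F)
      (a := fun k : ℕ => (k : ℝ) / S.D.P) (n := S.D.P) fun k _ => hF.intervalIntegrable _ _
    simp only [Nat.cast_zero, zero_div, div_self hP.ne', Nat.cast_add, Nat.cast_one] at this
    rw [← this, ← Fin.sum_univ_eq_sum_range
      (fun k : ℕ => ∫ θ in ((k : ℝ) / S.D.P)..(((k : ℝ) + 1) / S.D.P), F θ)]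
    refine Fintype.sum_bijective (fun i : Fin S.D.P => ((i : ℕ) : ZMod S.D.P))
      ⟨fun i j hij => Fin.ext ?_, fun y => ⟨⟨y.val, y.val_lt⟩, ZMod.natCast_zmod_val y⟩⟩ _ _
      fun i => ?_
    · have := congrArg ZMod.val hij
      simpa [ZMod.val_natCast_of_lt i.2, ZMod.val_natCast_of_lt j.2] using this
    · simp only [hT, ZMod.val_natCast_of_lt i.2, Int.cast_natCast]
  rw [h1, ← Fintype.sum_bijective S.cell S.cell_bij (fun x => T ((S.cell x).val))
    (fun y => T (y.val)) fun x => rfl, Fintype.sum_prod_type, ← Finset.univ_sigma_univ,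
    Finset.sum_sigma]
  refine Finset.sum_congr rfl fun r _ => ?_
  have hr : ∀ G : ℝ → ℂ, Continuous G →
      ∫ θ in ((S.D.a r : ℝ) / S.D.P)..(((S.D.a r : ℝ) + S.D.w r) / S.D.P), G θ =
      ∑ i : Fin (S.D.w r), ∫ θ in (((S.D.a r + (i : ℕ) : ℤ) : ℝ) / S.D.P)..
        ((((S.D.a r + (i : ℕ) : ℤ) : ℝ) + 1) / S.D.P), G θ := by
    intro G hG
    have := intervalIntegral.sum_integral_adjacent_intervals (μ := volume) (f := G)
      (a := fun k : ℕ => ((S.D.a r : ℝ) + k) / S.D.P) (n := S.D.w r)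
      fun k _ => hG.intervalIntegrable _ _
    simp only [Nat.cast_zero, add_zero, Nat.cast_add, Nat.cast_one] at this
    rw [← this, ← Fin.sum_univ_eq_sum_range
      (fun k : ℕ => ∫ θ in (((S.D.a r : ℝ) + k) / S.D.P)..(((S.D.a r : ℝ) + (k + 1)) / S.D.P),
        G θ)]
    refine Finset.sum_congr rfl fun i _ => ?_
    push_cast
    rw [add_assoc]
  rw [hr F hF, hr (fun θ => F (-θ)) (hF.comp continuous_neg), ← Finset.sum_add_distrib]
  refine Finset.sum_congr rfl fun i _ => ?_
  simp only [Fintype.sum_bool, cell, if_true, Bool.false_eq_true, if_false]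
  rw [hTcast, hTcast, intervalIntegral.integral_comp_neg]
  congr 1
  simp only [hT]
  push_cast
  congr 1 <;> ring

theorem U_neg (N θ : ℝ) : S.U N (-θ) = (starRingEnd ℂ) (S.U N θ) := by
  rw [U, U, S.phase_neg, conj_ch]

theorem coefU_eq (N : ℝ) (k : ℕ) :
    coefU (S.freq N) k = ((∑ r, 2 * (S.runInt N k r).re : ℝ) : ℂ) := by
  have hUc : Continuous (S.U N) := continuous_ch.comp
    (intervalIntegral.continuous_primitive (S.continuous_freq N).intervalIntegrable 0)
  have hper : Function.Periodic (fun θ => S.U N θ * ch (-((k : ℝ) * θ))) 1 := fun θ => by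
    simp only [S.periodic_U N θ]
    rw [show -((k : ℝ) * (θ + 1)) = -((k : ℝ) * θ) + ((-(k : ℤ) : ℤ) : ℝ) by push_cast; ring,
      ch_add_int]
  have := S.integral_circle (F := fun θ => S.U N θ * ch (-((k : ℝ) * θ)))
    (hUc.mul (continuous_ch.comp (by fun_prop))) hper
  rw [show coefU (S.freq N) k = ∫ θ in (0 : ℝ)..1, S.U N θ * ch (-((k : ℝ) * θ)) from rfl, this,
    Complex.ofReal_sum]
  refine Finset.sum_congr rfl fun r _ => ?_
  have hconj : ∀ θ : ℝ, S.U N (-θ) * ch (-((k : ℝ) * -θ)) =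
      (starRingEnd ℂ) (S.U N θ * ch (-((k : ℝ) * θ))) := fun θ => by
    rw [map_mul, S.U_neg, conj_ch, mul_neg]
  simp only [hconj, intervalIntegral.intervalIntegral_conj]
  exact Complex.add_conj _

/-- Every coefficient of the target is at most the slot bound, up to small errors. -/
theorem coef_bound {N : ℝ} (hN : S.Large N) (k : ℕ) {C : ℝ}
    (hC : ∀ σ b p q : ℝ, p ≤ q → σ ≠ 0 →
      ‖∫ x in p..q, ch (σ * x ^ 2 / 2 + b * x)‖ ≤ C / Real.sqrt |σ|) (hC0 : 0 ≤ C)
    {ρ Λ : ℝ → ℝ} {ε B₁ B₂ E : ℝ}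
    (hρ : ∀ κ, |ρ κ| ≤ B₁) (hρ0 : ∀ κ ∉ Set.Ioo (0 : ℝ) 1, ρ κ = 0)
    (hJ : ∀ r, ∀ κ : ℝ, ‖(Real.sqrt (N * S.wd r * S.tau) : ℂ) * (∫ x in (0 : ℝ)..1,
        ch (N * S.wd r * S.tau * ((∫ y in (0 : ℝ)..x, S.H y) - κ * x))) -
        (ρ κ : ℂ) * ch S.z₀ * ch (N * S.wd r * S.tau * Λ κ)‖ ≤ ε)
    (hB : ∀ g l X, |S.D.slot g l X| ≤ B₂)
    (hE : ∀ r, Real.sqrt (S.wd r / S.tau) * ε + 4 * (C * Real.sqrt (S.ell r / S.e)) ≤ E) :
    |Real.sqrt N * (coefU (S.freq N) k).re| ≤
      Real.sqrt ((1 - 2 * S.L) / (1 - 5 * S.e)) * (B₁ * B₂) + 2 * Fintype.card S.D.ι * E := by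
  have hτ := S.tau_pos
  set Q := Real.sqrt ((1 - 2 * S.L) / (1 - 5 * S.e)) with hQ
  have hQ0 : 0 ≤ Q := Real.sqrt_nonneg _
  set A : S.D.ι → ℝ := fun r => 2 * Real.sqrt ((S.D.G : ℝ) * S.D.w r / S.D.P) *
    Real.cos (2 * π * (S.D.β r - S.D.a r * (k : ℤ) / S.D.P -
      S.D.w r * S.freePhase Λ N k (S.D.time r))) with hA
  have hrun : ∀ r, |2 * (Real.sqrt N * (S.runInt N k r).re) -
      Q * ρ (S.kappa N k (S.D.time r)) * A r| ≤ 2 * E := by
    intro r
    have h := ((Complex.abs_re_le_norm _).trans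
      (S.runInt_bound (k := (k : ℝ)) hN r hC hC0 (hJ r _))).trans (hE r)
    rw [Complex.sub_re, Complex.re_ofReal_mul, Complex.re_ofReal_mul, ch_re] at h
    have hs : Real.sqrt (S.wd r / S.tau) = Q * Real.sqrt ((S.D.G : ℝ) * S.D.w r / S.D.P) := by
      rw [hQ, ← Real.sqrt_mul (div_nonneg (by linarith [S.L_small]) (by linarith [S.e_small]))]
      congr 1
      rw [wd, tau, len]
      have : (0 : ℝ) < S.D.G := Nat.cast_pos.2 S.D.G_pos
      have : 0 < 1 - 5 * S.e := by linarith [S.e_small]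
      have := S.P_pos'
      field_simp
    rw [hs] at h
    rw [abs_le] at h ⊢
    simp only [hA, Int.cast_natCast]
    constructor <;> linarith [h.1, h.2]
  have hsum : Real.sqrt N * (coefU (S.freq N) k).re =
      ∑ r, 2 * (Real.sqrt N * (S.runInt N k r).re) := by
    rw [S.coefU_eq, Complex.ofReal_re, Finset.mul_sum]
    exact Finset.sum_congr rfl fun r _ => by ring
  have hmain : |∑ r, Q * ρ (S.kappa N k (S.D.time r)) * A r| ≤ Q * (B₁ * B₂) := by
    have hslot : ∑ r, Q * ρ (S.kappa N k (S.D.time r)) * A r = ∑ g : Fin S.D.G,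
        Q * ρ (S.kappa N k g) * S.D.slot g (k : ℤ) (S.freePhase Λ N k g) := by
      simp only [Runs.slot, Finset.mul_sum, mul_ite, mul_zero]
      rw [Finset.sum_comm]
      refine Finset.sum_congr rfl fun r _ => ?_
      rw [Finset.sum_ite_eq, if_pos (Finset.mem_univ _), hA]
    rw [hslot]
    have hB₂ : ∀ g X, 0 ≤ B₂ → |Q * ρ (S.kappa N k g) * S.D.slot g (k : ℤ) X| ≤ Q * (B₁ * B₂) :=
      fun g X _ => by
        rw [abs_mul, abs_mul, abs_of_nonneg hQ0, mul_assoc]
        exact mul_le_mul_of_nonneg_left (mul_le_mul (hρ _) (hB _ _ _) (abs_nonneg _)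
          ((abs_nonneg _).trans (hρ 0))) hQ0
    have hB20 : 0 ≤ B₂ := (abs_nonneg _).trans (hB ⟨0, S.D.G_pos⟩ 0 0)
    by_cases hex : ∃ g, S.kappa N k g ∈ Set.Ioo (0 : ℝ) 1
    · obtain ⟨g₀, hg₀⟩ := hex
      rw [Finset.sum_eq_single g₀]
      · exact hB₂ _ _ hB20
      · intro g _ hg
        rw [hρ0 _ fun hmem => hg ?_, mul_zero, zero_mul]
        simp only [kappa, Set.mem_Ioo, div_pos_iff_of_pos_right hτ, div_lt_one hτ, t0] at hmem hg₀
        have hcmp : ∀ i j : ℕ, S.e + i * S.tau < S.e + j * S.tau + S.tau → i ≤ j := by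
          intro i j hij
          by_contra hlt
          have : ((j + 1 : ℕ) : ℝ) ≤ i := Nat.cast_le.2 (by omega)
          push_cast at this
          nlinarith
        exact Fin.ext (le_antisymm (hcmp _ _ (by linarith [hmem.1, hg₀.2]))
          (hcmp _ _ (by linarith [hmem.2, hg₀.1])))
      · simp
    · rw [Finset.sum_eq_zero fun g _ => by
        rw [hρ0 _ fun hmem => hex ⟨g, hmem⟩, mul_zero, zero_mul], abs_zero]
      exact mul_nonneg hQ0 (mul_nonneg ((abs_nonneg _).trans (hρ 0)) hB20)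
  rw [hsum]
  have hdiff : |∑ r, 2 * (Real.sqrt N * (S.runInt N k r).re) -
      ∑ r, Q * ρ (S.kappa N k (S.D.time r)) * A r| ≤ 2 * Fintype.card S.D.ι * E := by
    rw [← Finset.sum_sub_distrib]
    refine (Finset.abs_sum_le_sum_abs _ _).trans ((Finset.sum_le_sum fun r _ => hrun r).trans
      (le_of_eq ?_))
    rw [Finset.sum_const, Finset.card_univ, nsmul_eq_mul]
    ring
  rw [abs_le] at hmain hdiff ⊢
  constructor <;> linarith

end Cfg

end Vale.Agent.P110.Full.Target
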